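import Crest.Agent.X212.Map77.Cls
import Crest.Agent.X212.Idg99.Mat
import Crest.Agent.X212.Ind95.Pt
import Crest.Agent.X212.Wz78.Int
import Crest.Agent.X212.Ind95.Defs
import Crest.Agent.R249.DenH_714
import Crest.Agent.R235.Riem_399
import Crest.Agent.R249.Tv12_57
import Crest.Agent.R249.HKEnd_286
import Crest.Agent.R249.TofM_352
import Crest.Agent.X212.Wz78.Lich
import Crest.Agent.X212.Ell97.Main
import Crest.Agent.X212.Num57.Hop
import Crest.Agent.X212.Wz78.Kos
import Crest.Agent.X212.Idg99.Lc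
import Crest.Agent.X212.Map77.Mono

-- ▼ part X212/Idg99/Blk
section

/-! Block calculus: sums of connections, parallel symbols, the Clifford module of a symbol. -/

set_option autoImplicit false
set_option linter.unusedSectionVars false
open scoped Manifold ContDiff Topology InnerProductSpace
open Finset Filter

noncomputable section
namespace Crest.Agent.X212.Idg99
open An Wz78 Sob92 Ind95 Map77
open Ell97 (inner_tr tr_inner)

section lin
variable {U V W : Type} [NormedAddCommGroup U] [InnerProductSpace ℝ U]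
  [NormedAddCommGroup V] [InnerProductSpace ℝ V] [NormedAddCommGroup W] [InnerProductSpace ℝ W]

theorem cext {S T : U →L[ℝ] P2 V W} (h1 : ∀ u, f2 V W (S u) = f2 V W (T u))
    (h2 : ∀ u, s2 V W (S u) = s2 V W (T u)) : S = T :=
  ContinuousLinearMap.ext fun u => ext2 (h1 u) (h2 u)

theorem sm2_mul (A A' : V →L[ℝ] V) (B B' : W →L[ℝ] W) :
    sm2 A B * sm2 A' B' = sm2 (A * A') (B * B') := cext (by simp) (by simp)

theorem skew_sm2 {A : V →L[ℝ] V} {B : W →L[ℝ] W} (hA : Skew A) (hB : Skew B) : Skew (sm2 A B) :=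
  fun u v => by simp only [inner2, f2_sm2, s2_sm2, hA _ _, hB _ _, neg_add]

variable [FiniteDimensional ℝ V] [FiniteDimensional ℝ W]

theorem trL_sm2 (A : V →L[ℝ] V) (B : W →L[ℝ] W) : trL (sm2 A B) = trL A + trL B := by
  rw [sm2, pr2, map_add]
  congr 1
  · exact LinearMap.trace_comp_comm' ((A ∘L f2 V W : P2 V W →L[ℝ] V) : P2 V W →ₗ[ℝ] V)
      (i1 V W : V →ₗ[ℝ] P2 V W)
  · exact LinearMap.trace_comp_comm' ((B ∘L s2 V W : P2 V W →L[ℝ] W) : P2 V W →ₗ[ℝ] W)
      (i2 V W : W →ₗ[ℝ] P2 V W)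

variable {ι : Type*} [Fintype ι]

theorem cw_sm2 (o : ι → ι → ι → ι → ℝ) (S : V →L[ℝ] V) (T : W →L[ℝ] W) (K : ι → ι → V →L[ℝ] V)
    (L : ι → ι → W →L[ℝ] W) :
    cw o (sm2 S T) (fun a b => sm2 (K a b) (L a b)) = cw o S K + cw o T L := by
  simp only [cw_eq, sm2_mul, trL_sm2, c4_add]

theorem dens_sm2 (o R : ι → ι → ι → ι → ℝ) (S : V →L[ℝ] V) (T : W →L[ℝ] W)
    (K : ι → ι → V →L[ℝ] V) (L : ι → ι → W →L[ℝ] W) :
    dens o (sm2 S T) (fun a b => sm2 (K a b) (L a b)) R = dens o S K R + dens o T L R := by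
  simp only [Ind95.dens, cw_sm2, trL_sm2]; ring

theorem dens_neg (o R : ι → ι → ι → ι → ℝ) (S : V →L[ℝ] V) (K : ι → ι → V →L[ℝ] V) :
    dens o (-S) K R = -dens o S K R := by
  simp only [Ind95.dens, cw_eq, neg_mul, map_neg, c4_neg]; ring

theorem dens_sub (o R : ι → ι → ι → ι → ℝ) (S T : V →L[ℝ] V) (K : ι → ι → V →L[ℝ] V) :
    dens o (S - T) K R = dens o S K R - dens o T K R := by
  simp only [Ind95.dens, cw_eq, sub_mul, map_sub, c4_sub]; ring

theorem dens_add (o R : ι → ι → ι → ι → ℝ) (S T : V →L[ℝ] V) (K : ι → ι → V →L[ℝ] V) :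
    dens o (S + T) K R = dens o S K R + dens o T K R := by
  simp only [Ind95.dens, cw_eq, add_mul, map_add, c4_add]; ring

theorem dens_smul (o R : ι → ι → ι → ι → ℝ) (r : ℝ) (S : V →L[ℝ] V) (K : ι → ι → V →L[ℝ] V) :
    dens o (r • S) K R = r * dens o S K R := by
  simp only [Ind95.dens, cw_eq, smul_mul_assoc, map_smul, smul_eq_mul, c4_mul]; ring

/-- a symbol as a skew endomorphism of the sum -/
def clf : (V →L[ℝ] W) →L[ℝ] P2 V W →L[ℝ] P2 V W :=
  (ContinuousLinearMap.compL ℝ (P2 V W) V (P2 V W) (-i1 V W)).comp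
      (((ContinuousLinearMap.compL ℝ (P2 V W) W V).flip (s2 V W)).comp (Ell97.trL V W))
    + (ContinuousLinearMap.compL ℝ (P2 V W) W (P2 V W) (i2 V W)).comp
      ((ContinuousLinearMap.compL ℝ (P2 V W) V W).flip (f2 V W))

@[simp] theorem f2_clf (σ : V →L[ℝ] W) (u : P2 V W) :
    f2 V W (clf σ u) = -Op.tr σ (s2 V W u) := by simp [clf, Ell97.trL_apply]

@[simp] theorem s2_clf (σ : V →L[ℝ] W) (u : P2 V W) : s2 V W (clf σ u) = σ (f2 V W u) := by
  simp [clf]

theorem clf_i1 (σ : V →L[ℝ] W) (v : V) : clf σ (i1 V W v) = i2 V W (σ v) := ext2 (by simp) (by simp)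

theorem clf_i2 (σ : V →L[ℝ] W) (w : W) : clf σ (i2 V W w) = -i1 V W (Op.tr σ w) :=
  ext2 (by simp) (by simp)

theorem skew_clf (σ : V →L[ℝ] W) : Skew (clf σ) := fun u v => by
  simp only [inner2, f2_clf, s2_clf, inner_neg_left, inner_neg_right, inner_tr, tr_inner]; ring

theorem tr_skew {A : V →L[ℝ] V} {B : W →L[ℝ] W} (hA : Skew A) (hB : Skew B) (σ : V →L[ℝ] W) :
    clf (B ∘L σ - σ ∘L A) = sm2 A B * clf σ - clf σ * sm2 A B := by
  refine cext (fun u => ext_inner_left ℝ fun v => ?_) (by simp)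
  have h := hA v (Op.tr σ (s2 V W u))
  simp only [f2_clf, sub_apply, mul_apply_eq_comp, map_sub, f2_sm2, s2_sm2, inner_neg_right,
    inner_sub_right, inner_sub_left, inner_tr, ContinuousLinearMap.comp_apply, map_neg,
    hB (σ v)] at h ⊢
  linarith

end lin

variable {E H : Type*} [NormedAddCommGroup E] [NormedSpace ℝ E] [TopologicalSpace H]
  {I : ModelWithCorners ℝ E H} {M : Type*} [TopologicalSpace M] [ChartedSpace H M]
  {ι : Type*} [Fintype ι] [IsManifold I 1 M]
  {U V W : Type} [NormedAddCommGroup U] [InnerProductSpace ℝ U]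
  [NormedAddCommGroup V] [InnerProductSpace ℝ V] [NormedAddCommGroup W] [InnerProductSpace ℝ W]
  {e : ι → (x : M) → TangentSpace I x} {P : ι → ι → M → ℝ} {c Γ : ι → ι → ι → M → ℝ} {x : M}

section dv
variable {v : (x : M) → TangentSpace I x}

theorem sa_comp {S : M → V →L[ℝ] W} {T : M → U →L[ℝ] V} (hS : SA I S x) (hT : SA I T x) :
    SA I (fun y => S y ∘L T y) x := hS.clm_comp hT

theorem dv_compL {S : M → V →L[ℝ] W} {T : M → U →L[ℝ] V} (hS : SA I S x) (hT : SA I T x) :
    dv I v (fun y => S y ∘L T y) x = dv I v S x ∘L T x + S x ∘L dv I v T x :=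
  dv_bil (ContinuousLinearMap.compL ℝ U V W) hS.md hT.md

theorem dv_compR {S : M → V →L[ℝ] W} (T : U →L[ℝ] V) (hS : SA I S x) :
    dv I v (fun y => S y ∘L T) x = dv I v S x ∘L T :=
  dv_clm ((ContinuousLinearMap.compL ℝ U V W).flip T) hS.md

theorem sa_pr2 {S : M → U →L[ℝ] V} {T : M → U →L[ℝ] W} (hS : SA I S x) (hT : SA I T x) :
    SA I (fun y => pr2 (S y) (T y)) x :=
  (sa_comp contMDiffAt_const hS).add (sa_comp contMDiffAt_const hT)

theorem dv_pr2 {S : M → U →L[ℝ] V} {T : M → U →L[ℝ] W} (hS : SA I S x) (hT : SA I T x) :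
    dv I v (fun y => pr2 (S y) (T y)) x = pr2 (dv I v S x) (dv I v T x) := by
  refine (dv_add' (sa_comp contMDiffAt_const hS) (sa_comp contMDiffAt_const hT)).trans ?_
  rw [dv_compL contMDiffAt_const hS, dv_compL contMDiffAt_const hT]
  simp [pr2]

theorem sa_sm2 {S : M → V →L[ℝ] V} {T : M → W →L[ℝ] W} (hS : SA I S x) (hT : SA I T x) :
    SA I (fun y => sm2 (S y) (T y)) x :=
  sa_pr2 (sa_comp hS contMDiffAt_const) (sa_comp hT contMDiffAt_const)

theorem dv_sm2 {S : M → V →L[ℝ] V} {T : M → W →L[ℝ] W} (hS : SA I S x) (hT : SA I T x) :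
    dv I v (fun y => sm2 (S y) (T y)) x = sm2 (dv I v S x) (dv I v T x) := by
  refine (dv_pr2 (sa_comp hS contMDiffAt_const) (sa_comp hT contMDiffAt_const)).trans ?_
  rw [dv_compR _ hS, dv_compR _ hT]; rfl

end dv

/-- the sum of two connections -/
def sA (A : ι → M → V →L[ℝ] V) (B : ι → M → W →L[ℝ] W) (a : ι) (y : M) : P2 V W →L[ℝ] P2 V W :=
  sm2 (A a y) (B a y)

variable {A : ι → M → V →L[ℝ] V} {B : ι → M → W →L[ℝ] W} {C : ι → M → U →L[ℝ] U}

theorem con_sA (hA : Con I P A) (hB : Con I P B) : Con I P (sA A B) :=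
  ⟨fun a x => sa_sm2 (hA.sm a x) (hB.sm a x), fun a x =>
    cext (by simp [sA, ← hA.proj a x]) (by simp [sA, ← hB.proj a x])⟩

theorem curv_sA (hA : ∀ a, SA I (A a) x) (hB : ∀ a, SA I (B a) x) (a b : ι) :
    curv I e c (sA A B) a b x = sm2 (curv I e c A a b x) (curv I e c B a b x) := by
  have h : ∀ a b, dv I (e a) (sA A B b) x = _ := fun a b => dv_sm2 (hA b) (hB b)
  refine cext ?_ ?_ <;> simp [curv, h, sA]

theorem nabE_sA {S : M → V →L[ℝ] V} {T : M → W →L[ℝ] W} (hS : SA I S x) (hT : SA I T x) (a : ι) :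
    nabE I e (sA A B) a (fun y => sm2 (S y) (T y)) x
      = sm2 (nabE I e A a S x) (nabE I e B a T x) := by
  refine cext ?_ ?_ <;> simp [nabE, dv_sm2 hS hT, sA]

theorem par_sA {S : M → V →L[ℝ] V} {T : M → W →L[ℝ] W} (hS : SA I S x) (hT : SA I T x) {a : ι}
    (h1 : nabE I e A a S x = 0) (h2 : nabE I e B a T x = 0) :
    nabE I e (sA A B) a (fun y => sm2 (S y) (T y)) x = 0 := by
  rw [nabE_sA hS hT, h1, h2]; exact cext (by simp) (by simp)

variable (I e Γ) in
/-- a smooth parallel symbol -/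
structure ParS (σ : ι → M → V →L[ℝ] W) (A : ι → M → V →L[ℝ] V) (B : ι → M → W →L[ℝ] W) : Prop where
  sm : ∀ a x, SA I (σ a) x
  par : ∀ a b x, dv I (e a) (σ b) x + (B a x ∘L σ b x - σ b x ∘L A a x) = ∑ k, Γ a b k x • σ k x

variable {σ : ι → M → V →L[ℝ] W}

theorem ParS.pr2 {τ : ι → M → V →L[ℝ] U} (h : ParS I e Γ σ A B) (h' : ParS I e Γ τ A C) :
    ParS I e Γ (fun a x => pr2 (σ a x) (τ a x)) A (sA B C) :=
  ⟨fun a x => sa_pr2 (h.sm a x) (h'.sm a x), fun a b x => by
    rw [dv_pr2 (h.sm b x) (h'.sm b x)]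
    refine cext (fun u => ?_) fun u => ?_
    · simpa [sA] using DFunLike.congr_fun (h.par a b x) u
    · simpa [sA] using DFunLike.congr_fun (h'.par a b x) u⟩

theorem ParS.fst (h : ParS I e Γ σ A B) :
    ParS I e Γ (fun a x => σ a x ∘L f2 V U) (sA A C) B :=
  ⟨fun a x => sa_comp (h.sm a x) contMDiffAt_const, fun a b x => by
    rw [dv_compR _ (h.sm b x)]
    ext1 u
    simpa [sA] using DFunLike.congr_fun (h.par a b x) (f2 V U u)⟩

theorem ParS.snd (h : ParS I e Γ σ A B) :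
    ParS I e Γ (fun a x => σ a x ∘L s2 U V) (sA C A) B :=
  ⟨fun a x => sa_comp (h.sm a x) contMDiffAt_const, fun a b x => by
    rw [dv_compR _ (h.sm b x)]
    ext1 u
    simpa [sA] using DFunLike.congr_fun (h.par a b x) (s2 U V u)⟩

/-- composition with parallel endomorphisms -/
theorem ParS.comp (h : ParS I e Γ σ A B) {S : M → V →L[ℝ] V} {T : M → W →L[ℝ] W}
    (hS : ∀ x, SA I S x) (hT : ∀ x, SA I T x) (h1 : ∀ a x, nabE I e A a S x = 0)
    (h2 : ∀ a x, nabE I e B a T x = 0) : ParS I e Γ (fun a x => T x ∘L σ a x ∘L S x) A B :=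
  ⟨fun a x => sa_comp (hT x) (sa_comp (h.sm a x) (hS x)), fun a b x => by
    rw [dv_compL (hT x) (sa_comp (h.sm b x) (hS x)), dv_compL (h.sm b x) (hS x),
      eq_neg_of_add_eq_zero_left (h1 a x), eq_neg_of_add_eq_zero_left (h2 a x),
      eq_sub_of_add_eq (h.par a b x)]
    ext1 u
    simp
    abel⟩

theorem ParS.clf [FiniteDimensional ℝ V] [FiniteDimensional ℝ W] (h : ParS I e Γ σ A B)
    (hA : ∀ a x, Skew (A a x)) (hB : ∀ a x, Skew (B a x)) (a b : ι) (x : M) :
    nabE I e (sA A B) a (fun y => clf (σ b y)) x = ∑ k, Γ a b k x • clf (σ k x) := by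
  rw [nabE, dv_clm _ (h.sm b x).md, sA, ← tr_skew (hA a x) (hB a x), ← map_add, h.par, map_sum]
  simp only [map_smul]

end Crest.Agent.X212.Idg99
end
end

-- ▼ part X212/Ind95/Rc
section

/-!
# X212 / IND (helper95), part 2: change of the model

`Rc I L M` is `M` with the charts `L ∘ extChartAt I x` (model `F`).  Frames are transported (`rce`),
the derivatives `dv` and smoothness of functions are unchanged.  `F4 e P c μ` is the data of a frame on a
manifold modelled on `ℝ⁴` with its Riemannian measure; `f4_of_fr` produces it from `An.Fr`.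
-/

set_option autoImplicit false
set_option linter.unusedSectionVars false
noncomputable section
open scoped Manifold ContDiff Topology InnerProductSpace
open MeasureTheory Set Function Filter

namespace Crest.Agent.X212.Ind95

open Crest.Agent.X212.Sob92 Crest.Agent.X212.Wz78 Crest.Agent.X212.An

section rc

variable {E : Type} [NormedAddCommGroup E] [NormedSpace ℝ E]
  {HM : Type} [TopologicalSpace HM] {I : ModelWithCorners ℝ E HM} [I.Boundaryless]
  {F : Type} [NormedAddCommGroup F] [NormedSpace ℝ F] {L : E ≃L[ℝ] F}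
  {M : Type} [TopologicalSpace M] [ChartedSpace HM M] [IsManifold I ∞ M]
  {N : Type*} [NormedAddCommGroup N] [NormedSpace ℝ N]

/-- `M` with another model -/
@[nolint unusedArguments]
def Rc (_I : ModelWithCorners ℝ E HM) (_L : E ≃L[ℝ] F) (M : Type) : Type := M

instance : TopologicalSpace (Rc I L M) := ‹TopologicalSpace M›
instance [h : MeasurableSpace M] : MeasurableSpace (Rc I L M) := h
instance [MeasurableSpace M] [h : BorelSpace M] : BorelSpace (Rc I L M) := h
instance [h : T2Space M] : T2Space (Rc I L M) := h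
instance [h : CompactSpace M] : CompactSpace (Rc I L M) := h
instance [h : ConnectedSpace M] : ConnectedSpace (Rc I L M) := h

variable (I L) in
/-- the new charts -/
def rch (x : M) : OpenPartialHomeomorph (Rc I L M) F :=
  (chartAt HM x).transHomeomorph (I.toHomeomorph.trans L.toHomeomorph)

theorem rch_apply (x y : M) : rch I L x y = L (extChartAt I x y) := rfl

theorem rch_symm (x : M) (w : F) : (rch I L x).symm w = (extChartAt I x).symm (L.symm w) := rfl

theorem rch_source (x : M) : (rch I L x).source = (extChartAt I x).source := by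
  rw [extChartAt_source]; rfl

instance : ChartedSpace F (Rc I L M) where
  atlas := range (rch I L)
  chartAt x := rch I L x
  mem_chart_source x := mem_chart_source HM (show M from x)
  chart_mem_atlas x := ⟨x, rfl⟩

theorem chartAt_rc (x : Rc I L M) : chartAt F x = rch I L (show M from x) := rfl

instance : IsManifold 𝓘(ℝ, F) ∞ (Rc I L M) := by
  refine isManifold_of_contDiffOn _ _ _ ?_
  rintro _ _ ⟨x, rfl⟩ ⟨y, rfl⟩
  have h := contDiffOn_ext_coord_change (I := I) (n := ∞) y x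
  have h2 : ContDiffOn ℝ ∞ (fun w => L ((extChartAt I y ∘ (extChartAt I x).symm) (L.symm w)))
      (L.symm ⁻¹' ((extChartAt I x).symm ≫ extChartAt I y).source) :=
    L.contDiff.comp_contDiffOn (h.comp L.symm.contDiff.contDiffOn fun _ hw => hw)
  refine h2.mono ?_ |>.congr fun w _ => rfl
  intro w hw
  simp only [modelWithCornersSelf_coe_symm, preimage_id_eq, id_eq, modelWithCornersSelf_coe, range_id,
    inter_univ, OpenPartialHomeomorph.trans_source, OpenPartialHomeomorph.symm_source, mem_inter_iff,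
    mem_preimage] at hw
  obtain ⟨h1, h3⟩ := hw
  refine ⟨?_, ?_⟩
  · have h4 := (rch I L x).map_target h1
    have h5 := (rch I L x).right_inv h1
    rw [rch_source] at h4
    have h6 : L.symm w = extChartAt I x ((rch I L x).symm w) := by
      nth_rewrite 1 [← h5]; exact L.symm_apply_apply _
    change L.symm w ∈ (extChartAt I x).target
    rw [h6]
    exact (extChartAt I x).map_source h4
  · rw [rch_source] at h3
    exact h3

variable (I L) in
/-- the identity map -/
def toRc (x : M) : Rc I L M := x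

variable (I L) in
/-- the identity map -/
def ofRc (x : Rc I L M) : M := x

variable (I L) in
/-- a function on `M` as a function on `Rc I L M` -/
def up {α : Type*} (u : M → α) : Rc I L M → α := u

theorem sm_toRc : ContMDiff I 𝓘(ℝ, F) ∞ (toRc I L : M → Rc I L M) := by
  intro x
  rw [contMDiffAt_iff_target]
  refine ⟨continuousAt_id, ?_⟩
  exact L.contDiff.contMDiff.contMDiffAt.comp x (contMDiffAt_extChartAt (I := I) (x := x))

theorem sm_ofRc : ContMDiff 𝓘(ℝ, F) I ∞ (ofRc I L : Rc I L M → M) := by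
  intro x
  rw [contMDiffAt_iff_target]
  refine ⟨continuousAt_id, ?_⟩
  have h := L.symm.contDiff.contMDiff.contMDiffAt.comp x
    (contMDiffAt_extChartAt (I := 𝓘(ℝ, F)) (n := ∞) (x := x))
  refine h.congr_of_eventuallyEq (Eventually.of_forall fun y => ?_)
  exact (L.symm_apply_apply _).symm

theorem sa_rc {u : M → N} {x : M} {n : WithTop ℕ∞} (hn : n ≤ ∞) :
    ContMDiffAt 𝓘(ℝ, F) 𝓘(ℝ, N) n (up I L u) (toRc I L x)
      ↔ ContMDiffAt I 𝓘(ℝ, N) n u x :=
  ⟨fun h => h.comp x ((sm_toRc x).of_le hn),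
    fun h => ContMDiffAt.comp (f := ofRc I L) (toRc I L x) h ((sm_ofRc _).of_le hn)⟩

theorem md_rc {u : M → N} {x : M} :
    MDifferentiableAt 𝓘(ℝ, F) 𝓘(ℝ, N) (up I L u) (toRc I L x)
      ↔ MDifferentiableAt I 𝓘(ℝ, N) u x :=
  ⟨fun h => h.comp x ((sm_toRc x).mdifferentiableAt (by simp)),
    fun h => MDifferentiableAt.comp (f := ofRc I L) (toRc I L x) h
      ((sm_ofRc _).mdifferentiableAt (by simp))⟩

variable (L) in
/-- transport of a vector field -/
def rce (e : (x : M) → TangentSpace I x) (x : Rc I L M) : TangentSpace 𝓘(ℝ, F) x :=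
  mfderiv I 𝓘(ℝ, F) (toRc I L) (ofRc I L x) (e (ofRc I L x))

theorem dv_rc (e : (x : M) → TangentSpace I x) (u : M → N) :
    dv 𝓘(ℝ, F) (rce L e) (up I L u) = up I L (dv I e u) := by
  refine funext fun (x : M) => ?_
  change dv 𝓘(ℝ, F) (rce L e) (up I L u) (toRc I L x) = dv I e u x
  by_cases h : MDifferentiableAt I 𝓘(ℝ, N) u x
  · have h1 := mfderiv_comp (I := I) (I' := 𝓘(ℝ, F)) (I'' := 𝓘(ℝ, N)) (f := toRc I L)
      (g := (up I L u)) x (md_rc.2 h) ((sm_toRc x).mdifferentiableAt (by simp))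
    have h2 : dv I e u x
        = mfderiv I 𝓘(ℝ, N) ((up I L u) ∘ toRc I L) x (e x) := rfl
    rw [h2, h1]
    rfl
  · have h1 : mfderiv I 𝓘(ℝ, N) u x = 0 := mfderiv_zero_of_not_mdifferentiableAt h
    have h2 : mfderiv 𝓘(ℝ, F) 𝓘(ℝ, N) (up I L u) (toRc I L x) = 0 :=
      mfderiv_zero_of_not_mdifferentiableAt fun h' => h (md_rc.1 h')
    have h3 : dv I e u x = 0 := by
      unfold dv; rw [h1]; rfl
    rw [h3]
    change mfderiv 𝓘(ℝ, F) 𝓘(ℝ, N) (up I L u) (toRc I L x) _ = 0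
    rw [h2]; rfl

theorem sm_rce {e : (x : M) → TangentSpace I x}
    (he : ContMDiff I I.tangent ∞ fun x => (⟨x, e x⟩ : TangentBundle I M)) :
    ContMDiff 𝓘(ℝ, F) 𝓘(ℝ, F).tangent ∞
      fun x => (⟨x, rce L e x⟩ : TangentBundle 𝓘(ℝ, F) (Rc I L M)) :=
  ((sm_toRc (I := I) (L := L) (M := M)).contMDiff_tangentMap (m := ∞) (by simp)).comp
    (he.comp sm_ofRc)

theorem mf_to_of (x : M) (v : TangentSpace 𝓘(ℝ, F) (toRc I L x)) :
    mfderiv I 𝓘(ℝ, F) (toRc I L) x (mfderiv 𝓘(ℝ, F) I (ofRc I L) (toRc I L x) v) = v := by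
  have h1 := mfderiv_comp (I := 𝓘(ℝ, F)) (I' := I) (I'' := 𝓘(ℝ, F)) (f := ofRc I L)
    (g := (toRc I L : M → Rc I L M)) (toRc I L x) ((sm_toRc x).mdifferentiableAt (by simp))
    ((sm_ofRc _).mdifferentiableAt (by simp))
  have h2 : (toRc I L ∘ ofRc I L : Rc I L M → Rc I L M) = id := rfl
  rw [h2, mfderiv_id] at h1
  exact (congrArg (fun T => T v) h1).symm

theorem mf_of_to (x : M) (v : TangentSpace I x) :
    mfderiv 𝓘(ℝ, F) I (ofRc I L) (toRc I L x) (mfderiv I 𝓘(ℝ, F) (toRc I L) x v) = v := by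
  have h1 := mfderiv_comp (I := I) (I' := 𝓘(ℝ, F)) (I'' := I) (g := ofRc I L)
    (f := (toRc I L : M → Rc I L M)) x ((sm_ofRc _).mdifferentiableAt (by simp))
    ((sm_toRc x).mdifferentiableAt (by simp))
  have h2 : (ofRc I L ∘ toRc I L : M → M) = id := rfl
  rw [h2, mfderiv_id] at h1
  exact (congrArg (fun T => T v) h1).symm

end rc

/-- Euclidean four-space -/
abbrev R4 : Type := EuclideanSpace ℝ (Fin 4)

section f4

variable {N : Type} [TopologicalSpace N] [ChartedSpace R4 N] [IsManifold (𝓡 4) ∞ N]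
  [MeasurableSpace N] {ι : Type} [Fintype ι]

/-- the cometric in the chart at `x₀` -/
def gr4 (e : ι → (x : N) → TangentSpace (𝓡 4) x) (x₀ x : N) : Matrix (Fin 4) (Fin 4) ℝ :=
  Matrix.of fun i j => ∑ a, dv (𝓡 4) (e a) (chartAt R4 x₀) x i * dv (𝓡 4) (e a) (chartAt R4 x₀) x j

/-- a frame with its Riemannian measure -/
structure F4 (e : ι → (x : N) → TangentSpace (𝓡 4) x) (P : ι → ι → N → ℝ)
    (c : ι → ι → ι → N → ℝ) (μ : Measure N) : Prop where
  frm : Frm (𝓡 4) e P c
  span : ∀ x, Submodule.span ℝ (range fun a => e a x) = ⊤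
  ker : ∀ x (ξ : ι → ℝ), ∑ b, ξ b • e b x = 0 → ∀ a, ∑ b, P a b x * ξ b = 0
  vol : ∀ x₀, ∃ O, IsOpen O ∧ x₀ ∈ O ∧ O ⊆ (chartAt R4 x₀).source ∧ ∀ s, MeasurableSet s → s ⊆ O →
    μ s = ∫⁻ y in chartAt R4 x₀ '' s,
      ENNReal.ofReal (√(gr4 e x₀ ((chartAt R4 x₀).symm y)).det)⁻¹

end f4

section fr

variable {E : Type} [NormedAddCommGroup E] [NormedSpace ℝ E] [FiniteDimensional ℝ E]
  [MeasurableSpace E] [BorelSpace E]
  {HM : Type} [TopologicalSpace HM] {I : ModelWithCorners ℝ E HM} [I.Boundaryless]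
  {M : Type} [TopologicalSpace M] [ChartedSpace HM M] [IsManifold I ∞ M]
  [MeasurableSpace M] [BorelSpace M] {ι : Type} [Fintype ι]

/-- coordinates in the reference basis -/
def L4 (hE : Module.finrank ℝ E = 4) : E ≃L[ℝ] R4 :=
  (((Module.finBasis ℝ E).reindex (finCongr hE)).equiv (EuclideanSpace.basisFun (Fin 4) ℝ).toBasis
    (Equiv.refl _)).toContinuousLinearEquiv

theorem L4_apply (hE : Module.finrank ℝ E = 4) (v : E) (i : Fin 4) :
    L4 hE v i = (Module.finBasis ℝ E).repr v ((finCongr hE).symm i) := by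
  have h1 : L4 hE v i = (EuclideanSpace.basisFun (Fin 4) ℝ).toBasis.repr (L4 hE v) i := by simp
  rw [h1]
  have h2 : (EuclideanSpace.basisFun (Fin 4) ℝ).toBasis
      = ((Module.finBasis ℝ E).reindex (finCongr hE)).map (L4 hE).toLinearEquiv := by
    ext j : 1
    simp [L4]
  rw [h2]
  simp

theorem map_L4 (hE : Module.finrank ℝ E = 4) : (leb E).map (L4 hE) = volume := by
  have h2 : (EuclideanSpace.basisFun (Fin 4) ℝ).toBasis
      = ((Module.finBasis ℝ E).reindex (finCongr hE)).map (L4 hE).toLinearEquiv := by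
    ext j : 1
    simp [L4]
  rw [← (EuclideanSpace.basisFun (Fin 4) ℝ).addHaar_eq_volume, h2, ← Module.Basis.map_addHaar,
    Module.Basis.addHaar_reindex, leb]

theorem ms_img (x : M) {s : Set M} (hs : MeasurableSet s) (h : s ⊆ (extChartAt I x).source) :
    MeasurableSet (extChartAt I x '' s) := by
  have h1 : extChartAt I x '' s = (extChartAt I x).target ∩ (extChartAt I x).symm ⁻¹' s := by
    rw [← (extChartAt I x).image_source_inter_eq', inter_eq_right.2 h]
  have ht : MeasurableSet (extChartAt I x).target := (isOpen_extChartAt_target x).measurableSet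
  have h2 : Measurable ((extChartAt I x).target.domRestrict (extChartAt I x).symm) :=
    (continuousOn_extChartAt_symm x).domRestrict.measurable
  have h3 := ht.subtype_image (h2 hs)
  rw [h1]
  convert h3 using 1
  ext y
  simp only [mem_inter_iff, mem_preimage, mem_image, Subtype.exists, exists_and_right, exists_eq_right]
  exact ⟨fun ⟨a, b⟩ => ⟨a, b⟩, fun ⟨a, b⟩ => ⟨a, b⟩⟩

theorem rce_sum (L : E ≃L[ℝ] R4) (e : ι → (x : M) → TangentSpace I x) (ξ : ι → ℝ) (x : M) :
    ∑ b, ξ b • rce L (e b) (toRc I L x) = mfderiv I (𝓡 4) (toRc I L) x (∑ b, ξ b • e b x) := by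
  rw [map_sum]
  simp only [map_smul]
  rfl

theorem span_rc (L : E ≃L[ℝ] R4) (e : ι → (x : M) → TangentSpace I x) (x : M)
    (h : Submodule.span ℝ (range fun a => e a x) = ⊤) :
    Submodule.span ℝ (range fun a => rce L (e a) (toRc I L x)) = ⊤ := by
  rw [eq_top_iff]
  intro v _
  obtain ⟨w, hw⟩ : ∃ w : TangentSpace I x, mfderiv I (𝓡 4) (toRc I L) x w = v := ⟨_, mf_to_of x v⟩
  have h1 : w ∈ Submodule.span ℝ (range fun a => e a x) := by rw [h]; trivial
  obtain ⟨ξ, hξ⟩ := (Submodule.mem_span_range_iff_exists_fun ℝ).1 h1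
  refine (Submodule.mem_span_range_iff_exists_fun ℝ).2 ⟨ξ, ?_⟩
  rw [rce_sum, hξ, hw]

theorem vol_rc (hE : Module.finrank ℝ E = 4) (F : Fr I M ι) (x₀ : M) {O : Set M}
    (h : HasDens I F.μ x₀ O fun y => (√(F.gram x₀ ((extChartAt I x₀).symm y)).det)⁻¹)
    {s : Set M} (hs : MeasurableSet s) (hsO : s ⊆ O) :
    F.μ s = ∫⁻ y in L4 hE '' (extChartAt I x₀ '' s), ENNReal.ofReal
      (√(gr4 (fun a => rce (L4 hE) (F.e a)) (toRc I (L4 hE) x₀)
        (toRc I (L4 hE) ((extChartAt I x₀).symm ((L4 hE).symm y)))).det)⁻¹ := by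
  obtain ⟨hO, hx, hOs, hμ⟩ := h
  have hm := ms_img (I := I) x₀ hs (hsO.trans hOs)
  have hae : AEMeasurable (extChartAt I x₀) (F.μ.restrict O) :=
    ((continuousOn_extChartAt _).mono hOs).aemeasurable hO.measurableSet
  have h1 := congrArg (fun ν : Measure E => ν (extChartAt I x₀ '' s)) hμ
  beta_reduce at h1
  rw [Measure.map_apply_of_aemeasurable hae hm, Measure.restrict_apply' hO.measurableSet,
    withDensity_apply _ hm, Measure.restrict_restrict hm,
    inter_eq_left.2 (image_mono hsO)] at h1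
  have h2 : extChartAt I x₀ ⁻¹' (extChartAt I x₀ '' s) ∩ O = s := by
    ext y
    refine ⟨fun ⟨⟨w, hw, hwy⟩, hy⟩ => ?_, fun hy => ⟨⟨y, hy, rfl⟩, hsO hy⟩⟩
    rwa [← (extChartAt I x₀).injOn (hOs (hsO hw)) (hOs hy) hwy]
  rw [h2] at h1
  refine h1.trans ?_
  have hme : MeasurableEmbedding (L4 hE) := (L4 hE).toHomeomorph.measurableEmbedding
  rw [← map_L4 hE, hme.restrict_map, hme.lintegral_map, preimage_image_eq _ (L4 hE).injective]
  refine setLIntegral_congr_fun hm fun y hy => ?_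
  obtain ⟨w, hw, rfl⟩ := hy
  have hws := hOs (hsO hw)
  beta_reduce
  rw [(L4 hE).symm_apply_apply, (extChartAt I _).left_inv hws]
  have h5 : ∀ a, dv (𝓡 4) (rce (L4 hE) (F.e a)) (chartAt R4 (toRc I (L4 hE) x₀)) (toRc I (L4 hE) w)
      = L4 hE (F.D a (extChartAt I x₀) w) := fun a => by
    have h6 := congrFun (dv_rc (L := L4 hE) (F.e a)
      (fun y => (L4 hE : E →L[ℝ] R4) (extChartAt I x₀ y))) (toRc I (L4 hE) w)
    refine h6.trans ?_
    refine dv_clm (L4 hE : E →L[ℝ] R4) ?_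
    rw [extChartAt_source] at hws
    exact mdifferentiableAt_extChartAt hws
  have h7 : gr4 (fun a => rce (L4 hE) (F.e a)) (toRc I (L4 hE) x₀) (toRc I (L4 hE) w)
      = (F.gram x₀ w).submatrix (finCongr hE).symm (finCongr hE).symm := by
    ext i j
    simp only [gr4, Matrix.of_apply, h5, L4_apply, Pre.gram, Matrix.submatrix_apply]
  rw [h7, Matrix.det_submatrix_equiv_self]

theorem f4_of_fr (hE : Module.finrank ℝ E = 4) (F : Fr I M ι) (hv : F.IsVol) :
    F4 (N := Rc I (L4 hE) M) (fun a => rce (L4 hE) (F.e a)) F.P F.c F.μ where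
  frm :=
    { se := fun a x => sm_rce (F.sm a) x
      sP := fun a b x => (sa_rc le_rfl).2 (F.P_sm a b x)
      sc := fun a b k x => (sa_rc le_rfl).2 (F.c_sm a b k x)
      pr := fun x => frPr F x
      proj := fun a (x : M) =>
        (rce_sum (L4 hE) F.e (fun b => F.P a b x) x).trans (by rw [F.P_e]; rfl)
      br := fun a b (f : M → ℝ) (x : M) hf => by
        have h := (frm F).br a b f x ((sa_rc le_rfl).1 hf)
        have e1 := fun k => dv_rc (L := L4 hE) (F.e k) f
        have e2 := fun k l => dv_rc (L := L4 hE) (F.e k) (dv I (F.e l) f)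
        change dv (𝓡 4) _ (dv (𝓡 4) _ (up I (L4 hE) f)) _ - dv (𝓡 4) _ (dv (𝓡 4) _ (up I (L4 hE) f)) _
          = ∑ k, _ * dv (𝓡 4) _ (up I (L4 hE) f) _
        simp only [e1, e2]
        exact h }
  span := fun (x : M) => span_rc (L4 hE) F.e x (F.span x)
  ker := fun (x : M) ξ h => by
    refine F.P_ker x ξ ?_
    have h1 := (rce_sum (L4 hE) F.e ξ x).symm.trans h
    have h2 := mf_of_to (L := L4 hE) x (∑ b, ξ b • F.e b x)
    rw [h1] at h2
    exact h2.symm.trans (map_zero _)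
  vol := fun (x₀ : M) => by
    obtain ⟨O, h⟩ := hv x₀
    refine ⟨O, h.1, h.2.1, ?_, fun (s : Set M) hs hsO => ?_⟩
    · exact h.2.2.1.trans (rch_source (L := L4 hE) x₀).symm.subset
    · have h1 := vol_rc hE F x₀ h (s := s) hs hsO
      rw [image_image] at h1
      exact h1

end fr

end Crest.Agent.X212.Ind95
end
end

-- ▼ part X212/Ind95/Dat
section

/-!
# X212 / IND (helper95), part 5: from the frame format to the data of R249

On a Riemannian manifold with a Parseval frame `e`: the measure (`mu_eq`), the `Bun`/`Dat` of a bundle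
(`bun`, `dat`), the energy density (`ed_dat`) and the heat density (`dn_dat`).
-/

set_option autoImplicit false
set_option maxSynthPendingDepth 3
set_option linter.unusedSectionVars false
noncomputable section
open scoped Manifold ContDiff Topology InnerProductSpace Bundle ENNReal
open MeasureTheory Set Function Filter Bundle

namespace Crest.Agent.X212.Ind95

open Crest.GeometryTopology.CoordMetric Crest.GeometryTopology.ChartCurvature
open Crest.Agent.X212.Sob92 Crest.Agent.X212.Wz78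
open Crest.Agent.R202.Tens (bil bil_apply)
open Crest.Agent.R249.Vf281 Crest.Agent.R249.Tv57 Crest.Agent.R249.Tz805
open Crest.Agent.R247.Bo84 (dCh dSy dCh_dSy inner_eq_bil mgrad inner_mgrad)
open Crest.Agent.R249.HK9_714 (dn den Qc Pc Fc rd cd_cf sum_cf_toF)
open Crest.Agent.R247.Frd657 (cf)

variable {N : Type} [MetricSpace N] [ChartedSpace R4 N] [IsManifold (𝓡 4) ∞ N]
  [RiemannianBundle (fun p : N => TangentSpace (𝓡 4) p)]
  [IsContMDiffRiemannianBundle (𝓡 4) ∞ R4 (fun p : N => TangentSpace (𝓡 4) p)]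
  {ι : Type} [Fintype ι] {e : ι → (x : N) → TangentSpace (𝓡 4) x}
  {P : ι → ι → N → ℝ} {c : ι → ι → ι → N → ℝ}

/-- Parseval frames -/
def Pars (e : ι → (x : N) → TangentSpace (𝓡 4) x) : Prop :=
  ∀ (x : N) (v : TangentSpace (𝓡 4) x), ∑ a, (inner ℝ (e a x) v : ℝ) • e a x = v

theorem Pars.inner (h : Pars e) {x : N} (v w : TangentSpace (𝓡 4) x) :
    (inner ℝ v w : ℝ) = ∑ a, (inner ℝ v (e a x) : ℝ) * inner ℝ w (e a x) := by
  nth_rewrite 1 [← h x w]
  rw [inner_sum]
  exact Finset.sum_congr rfl fun a _ => by rw [real_inner_smul_right, real_inner_comm w, mul_comm]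

theorem Pars.zero (h : Pars e) {x : N} {v : TangentSpace (𝓡 4) x}
    (hv : ∀ a, (Inner.inner ℝ v (e a x) : ℝ) = 0) : v = 0 := by
  rw [← h x v]
  exact Finset.sum_eq_zero fun a _ => by rw [real_inner_comm, hv, zero_smul]

theorem Pars.eq_P (h : Pars e) (F : Frm (𝓡 4) e P c)
    (hk : ∀ x (ξ : ι → ℝ), ∑ b, ξ b • e b x = 0 → ∀ a, ∑ b, P a b x * ξ b = 0) (a b : ι) (x : N) :
    (Inner.inner ℝ (e a x) (e b x) : ℝ) = P a b x := by
  have h1 : ∑ d, ((Inner.inner ℝ (e d x) (e b x) : ℝ) - P b d x) • e d x = 0 := by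
    simp only [sub_smul, Finset.sum_sub_distrib, h x (e b x), F.proj b x, sub_self]
  have h2 := hk x _ h1 a
  simp only [mul_sub, Finset.sum_sub_distrib] at h2
  have h3 : ∑ d, P a d x * (Inner.inner ℝ (e d x) (e b x) : ℝ) = Inner.inner ℝ (e a x) (e b x) := by
    nth_rewrite 1 [← F.proj a x]
    rw [sum_inner]
    exact Finset.sum_congr rfl fun d _ => (real_inner_smul_left _ _ _).symm
  have h4 : ∑ d, P a d x * P b d x = P a b x := by
    rw [← (F.pr x).idem a b]
    exact Finset.sum_congr rfl fun d _ => by rw [(F.pr x).symm b d]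
  rw [h3, h4] at h2
  exact sub_eq_zero.1 h2

theorem sa_chart {x₀ x : N} (hx : x ∈ (chartAt R4 x₀).source) : SA (𝓡 4) (chartAt R4 x₀) x :=
  (contMDiffOn_chart (I := 𝓡 4) (n := ∞) x hx).contMDiffAt ((chartAt R4 x₀).open_source.mem_nhds hx)

theorem vsm (F : Frm (𝓡 4) e P c) (a : ι) (z : N) : VSm 4 ∞ (e a) z := by
  have h1 : SA (𝓡 4) (dv (𝓡 4) (e a) (chartAt R4 z)) z := F.sD a (sa_chart (mem_chart_source R4 z))
  have h2 : ContMDiffAt (𝓡 4) (𝓡 4) ∞ (chartAt R4 z).symm (chartAt R4 z z) :=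
    (contMDiffOn_chart_symm (I := 𝓡 4) (n := ∞) _ (mem_chart_target R4 z)).contMDiffAt
      ((chartAt R4 z).open_target.mem_nhds (mem_chart_target R4 z))
  have h3 : ContMDiffAt (𝓡 4) (𝓡 4) ∞ (dv (𝓡 4) (e a) (chartAt R4 z))
      ((chartAt R4 z).symm (chartAt R4 z z)) := by
    rw [(chartAt R4 z).left_inv (mem_chart_source R4 z)]; exact h1
  exact (h3.comp _ h2).contDiffAt

theorem vsm_sum {J : Type*} (s : Finset J) {X : J → (x : N) → TangentSpace (𝓡 4) x} {z : N}
    (hX : ∀ i, VSm 4 ∞ (X i) z) : VSm 4 ∞ (fun q => ∑ i ∈ s, X i q) z := by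
  have e1 : vCh 4 z (fun q => ∑ i ∈ s, X i q) = fun y => ∑ i ∈ s, vCh 4 z (X i) y :=
    funext fun y => map_sum (dCh (n := 4) z ((chartAt R4 z).symm y))
      (fun i => (show R4 from X i ((chartAt R4 z).symm y))) s
  rw [VSm, e1]
  exact ContDiffAt.sum fun i _ => hX i

theorem Pars.gr4_eq (h : Pars e) {x₀ x : N} (hx : x ∈ (chartAt R4 x₀).source) :
    gr4 e x₀ x = (chartMetric 4 N x₀ (chartAt R4 x₀ x))⁻¹ := by
  symm
  refine Matrix.inv_eq_left_inv ?_
  ext i j
  obtain ⟨v, hv⟩ : ∃ v : TangentSpace (𝓡 4) x, dCh x₀ x v = EuclideanSpace.single j 1 := by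
    have h1 := dCh_dSy (n := 4) x₀ ((chartAt R4 x₀).map_source hx) (EuclideanSpace.single j 1)
    rw [(chartAt R4 x₀).left_inv hx] at h1
    exact ⟨_, h1⟩
  have h2 : ∑ a, (Inner.inner ℝ (e a x) v : ℝ) • dCh x₀ x (e a x) = EuclideanSpace.single j 1 := by
    rw [← hv]
    nth_rewrite 2 [← h x v]
    refine Eq.trans ?_ (map_sum (dCh (n := 4) x₀ x) _ Finset.univ).symm
    exact Finset.sum_congr rfl fun a _ => (map_smul (dCh (n := 4) x₀ x) _ _).symm
  have h4 := congrArg (fun w : R4 => w i) h2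
  have h5 : ∀ a, (Inner.inner ℝ (e a x) v : ℝ)
      = ∑ m, chartMetric 4 N x₀ (chartAt R4 x₀ x) m j * dCh x₀ x (e a x) m := fun a => by
    refine (inner_eq_bil x₀ hx (e a x) v).trans ?_
    rw [hv, bil_apply]
    refine Finset.sum_congr rfl fun m _ => ?_
    simp
  simp only [WithLp.ofLp_sum, WithLp.ofLp_smul, Finset.sum_apply, Pi.smul_apply, smul_eq_mul, h5] at h4
  rw [Matrix.mul_apply, Matrix.one_apply]
  have h6 : (EuclideanSpace.single j (1 : ℝ) : R4) i = if i = j then 1 else 0 := by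
    simp
  rw [← h6, ← h4]
  simp only [gr4, Matrix.of_apply, Finset.sum_mul]
  rw [Finset.sum_comm]
  refine Finset.sum_congr rfl fun a _ => Finset.sum_congr rfl fun m _ => ?_
  change dCh x₀ x (e a x) i * dCh x₀ x (e a x) m * _ = _
  ring

variable {V : Type} [NormedAddCommGroup V] [InnerProductSpace ℝ V] [FiniteDimensional ℝ V]
  {κ : Type} [Fintype κ] (b : OrthonormalBasis κ ℝ V)
  {A : ι → N → V →L[ℝ] V} {p Q : N → V →L[ℝ] V}

theorem sa_ent {T : N → V →L[ℝ] V} {x : N} (h : SA (𝓡 4) T x) (k l : κ) :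
    SA (𝓡 4) (fun y => ent b k l (T y)) x := (ent b k l).contDiff.contMDiff.contMDiffAt.comp x h

theorem sm_ent {T : N → V →L[ℝ] V} (h : ∀ x, SA (𝓡 4) T x) (k l : κ) :
    ContMDiff (𝓡 4) 𝓘(ℝ, ℝ) ∞ (fun y => ent b k l (T y)) := fun x => sa_ent b (h x) k l

/-- the connection form -/
def cW (e : ι → (x : N) → TangentSpace (𝓡 4) x) (A : ι → N → V →L[ℝ] V) (k l : κ) (z : N) :
    TangentSpace (𝓡 4) z := ∑ a, ent b k l (A a z) • e a z

theorem inner_cW (hP : ∀ a d x, (inner ℝ (e a x) (e d x) : ℝ) = P a d x) (H : Hb (𝓡 4) e P A p Q)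
    (k l : κ) (a : ι) (z : N) : (inner ℝ (cW b e A k l z) (e a z) : ℝ) = ent b k l (A a z) := by
  rw [← H.proj a z, map_sum, cW, sum_inner]
  refine Finset.sum_congr rfl fun d _ => ?_
  rw [real_inner_smul_left, real_inner_comm, hP, map_smul, smul_eq_mul, mul_comm]

theorem inner_mg (f : N → ℝ) (a : ι) (z : N) :
    (inner ℝ (mgrad 4 f z) (e a z) : ℝ) = dv (𝓡 4) (e a) f z := inner_mgrad f z (e a z)

/-- the bundle -/
def bun (h : Pars e) (F : Frm (𝓡 4) e P c) (hP : ∀ a d x, (inner ℝ (e a x) (e d x) : ℝ) = P a d x)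
    (H : Hb (𝓡 4) e P A p Q) : Bun 4 N κ where
  W := cW b e A
  p k l z := ent b k l (p z)
  smW k l z := vsm_sum Finset.univ fun a => VSm.smul le_rfl (sa_ent b (H.sA a z) k l) (vsm F a z)
  skew k l z := by
    rw [cW, cW, ← Finset.sum_neg_distrib]
    refine Finset.sum_congr rfl fun a _ => ?_
    rw [← neg_smul, ent_apply, ent_apply, real_inner_comm, H.skew a z]
  smp k l z := sa_ent b (H.sp z) k l
  symmp k l z := by rw [ent_apply, ent_apply, ← H.symp, real_inner_comm]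
  idem k l z := by rw [← ent_mul, H.idem]
  par k l z := by
    refine h.zero fun a => ?_
    have h1 := congrArg (ent b k l) (H.par a z)
    rw [map_add, map_sub, map_zero, ent_mul, ent_mul, ← dv_clm (ent b k l) (H.sp z).md] at h1
    rw [inner_add_left, inner_mg, sum_inner, ← h1, ← Finset.sum_sub_distrib]
    congr 1
    refine Finset.sum_congr rfl fun m _ => ?_
    rw [inner_sub_left, real_inner_smul_left, real_inner_smul_left, inner_cW b hP H, inner_cW b hP H]
    ring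

/-- the vector valued function with the given components -/
def toV (u : κ → N → ℝ) (x : N) : V := ∑ k, u k x • b k

/-- the components -/
def co (u : N → V) (k : κ) (x : N) : ℝ := ⟪b k, u x⟫_ℝ

theorem co_toV (u : κ → N → ℝ) : co b (toV b u) = u := by
  funext k x; exact co_sum b _ k

theorem toV_co (u : N → V) : toV b (co b u) = u := by
  funext x; exact b.sum_repr' (u x)

theorem sa_toV {u : κ → N → ℝ} (hu : SmV (n := 4) u) (x : N) : SA (𝓡 4) (toV b u) x :=
  SA.sum Finset.univ fun k _ => SA.smul (hu k x) contMDiffAt_const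

theorem sm_co {u : N → V} (hu : ∀ x, SA (𝓡 4) u x) : SmV (n := 4) (co b u) :=
  fun _ x => SA.inner contMDiffAt_const (hu x)

theorem dot_co (u v : N → V) (x : N) : ∑ k, co b u k x * co b v k x = ⟪u x, v x⟫_ℝ := inner_co b _ _

theorem inner_cv (h : Pars e) (F : Frm (𝓡 4) e P c)
    (hP : ∀ a d x, (inner ℝ (e a x) (e d x) : ℝ) = P a d x) (H : Hb (𝓡 4) e P A p Q)
    {u : N → V} (hu : ∀ x, SA (𝓡 4) u x) (k : κ) (a : ι) (z : N) :
    (inner ℝ ((bun b h F hP H).cv (co b u) k z) (e a z) : ℝ) = ⟪b k, nab (𝓡 4) e A a u z⟫_ℝ := by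
  rw [Bun.cv, inner_add_left, inner_mg, sum_inner, nab, inner_add_right, ← ent_sum]
  congr 1
  · exact dv_clm (innerSL ℝ (b k)) (hu z).md
  · refine Finset.sum_congr rfl fun l _ => ?_
    rw [real_inner_smul_left, mul_comm]
    exact congrArg (· * _) (inner_cW b hP H k l a z)

variable [IsRiemannianManifold (𝓡 4) N] [MeasurableSpace N] [BorelSpace N]
  [SecondCountableTopology N] [Nonempty N]

theorem mu_eq [CompactSpace N] (h : Pars e) {μ : Measure N} (F : F4 e P c μ) :
    μ = (μHE[4] : Measure N) := by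
  choose O hO hx hOs hμ using F.vol
  obtain ⟨t, ht⟩ := isCompact_univ.elim_finite_subcover O hO fun x _ => mem_iUnion.2 ⟨x, hx x⟩
  refine (Measure.ext_iff_of_biUnion_eq_univ (S := (t : Set N)) (s := O) t.countable_toSet
    (univ_subset_iff.1 ht)).2 fun x _ => ?_
  ext s hs
  rw [Measure.restrict_apply hs, Measure.restrict_apply hs]
  have h1 : MeasurableSet (s ∩ O x) := hs.inter (hO x).measurableSet
  have h2 : s ∩ O x ⊆ (chartAt R4 x).source := inter_subset_right.trans (hOs x)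
  have h3 : MeasurableSet (chartAt R4 x '' (s ∩ O x)) :=
    ms_img (I := 𝓡 4) x h1 (by rwa [extChartAt_source])
  have h4 : chartAt R4 x '' (s ∩ O x) ⊆ (chartAt R4 x).target := by
    rintro _ ⟨y, hy, rfl⟩; exact (chartAt R4 x).map_source (h2 hy)
  have h5 := R247.Ms322.muHE_symm_image (n := 4) x h4 h3
  have h6 : (chartAt R4 x).symm '' (chartAt R4 x '' (s ∩ O x)) = s ∩ O x :=
    (chartAt R4 x).symm_image_image_of_subset_source h2
  rw [h6] at h5
  rw [h5, hμ x _ h1 inter_subset_right]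
  refine setLIntegral_congr_fun h3 fun y hy => ?_
  rw [h.gr4_eq ((chartAt R4 x).map_target (h4 hy)), (chartAt R4 x).right_inv (h4 hy),
    Matrix.det_nonsing_inv, Ring.inverse_eq_inv', Real.sqrt_inv, inv_inv]
  rfl

/-- the data of R249 -/
def dat (T : ToF 4 N) (h : Pars e) (F : Frm (𝓡 4) e P c)
    (hP : ∀ a d x, (inner ℝ (e a x) (e d x) : ℝ) = P a d x) (H : Hb (𝓡 4) e P A p Q) : Dat 4 N κ :=
  (bun b h F hP H).dat T (fun k l z => ent b k l (Q z)) (sm_ent b H.sQ)
    (fun k l z => by rw [ent_apply, ent_apply, ← H.symQ, real_inner_comm])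
    (fun k l z => by
      change ∑ r, ent b k r (Q z) * ent b r l (p z) = ∑ r, ent b k r (p z) * ent b r l (Q z)
      rw [← ent_mul, ← ent_mul, H.comm])

variable (T : ToF 4 N) (h : Pars e) (F : Frm (𝓡 4) e P c)
  (hP : ∀ a d x, (inner ℝ (e a x) (e d x) : ℝ) = P a d x) (H : Hb (𝓡 4) e P A p Q)

theorem sec_dat (u : N → V) : (dat b T h F hP H).Sec (co b u) ↔ ∀ x, p x (u x) = u x :=
  ⟨fun hs x => ext_co b fun k => (ent_sum b k (p x) (u x)).symm.trans (hs k x),
    fun hs k x => (ent_sum b k (p x) (u x)).trans (by rw [hs]; rfl)⟩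

theorem ed_dat {u v : N → V} (hu : ∀ x, SA (𝓡 4) u x) (hv : ∀ x, SA (𝓡 4) v x) (z : N) :
    (dat b T h F hP H).ed (co b u) (co b v) z
      = ∑ a, ⟪nab (𝓡 4) e A a u z, nab (𝓡 4) e A a v z⟫_ℝ + ⟪Q z (u z), v z⟫_ℝ := by
  unfold Dat.ed
  congr 1
  · have h1 : ∀ k, ⟪(dat b T h F hP H).cv (co b u) k z, (dat b T h F hP H).cv (co b v) k z⟫_ℝ
        = ∑ a, ⟪b k, nab (𝓡 4) e A a u z⟫_ℝ * ⟪b k, nab (𝓡 4) e A a v z⟫_ℝ := fun k => by
      have e1 : ∀ {u : N → V}, (∀ x, SA (𝓡 4) u x) → (dat b T h F hP H).cv (co b u) k z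
          = T.toF z ((bun b h F hP H).cv (co b u) k z) := fun hu =>
        Bun.cv_dat T _ _ _ _ _ (sm_co b hu) k z
      rw [e1 hu, e1 hv, T.inner_toF, h.inner]
      simp only [inner_cv b h F hP H hu, inner_cv b h F hP H hv]
    simp only [h1]
    rw [Finset.sum_comm]
    exact Finset.sum_congr rfl fun a _ => inner_co b _ _
  · rw [← inner_co b]
    refine Finset.sum_congr rfl fun k _ => ?_
    rw [← Finset.sum_mul, ← ent_sum]
    rfl

theorem curv_alg (εa εb da db cs B : Fin 4 → ℝ) (dB : Fin 4 → Fin 4 → ℝ) (h : ∀ l, da l - db l = cs l) :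
    ∑ l, (da l * B l + εb l * ∑ i, εa i * dB i l) - ∑ l, (db l * B l + εa l * ∑ i, εb i * dB i l)
      - ∑ l, cs l * B l = ∑ i, ∑ l, εa i * εb l * (dB i l - dB l i) := by
  simp only [← h, Fin.sum_univ_four]
  ring

theorem ent_A (k m : κ) (a : ι) {z x : N} (hx : x ∈ (chartAt R4 z).source) :
    ent b k m (A a x) = ∑ l, dv (𝓡 4) (e a) (chartAt R4 z) x l
      * cf z l ((dat b T h F hP H).X k m) (chartAt R4 z x) := by
  have h1 := sum_cf_toF T z ((chartAt R4 z).map_source hx) (cW b e A k m) (dCh z x (e a x))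
  have h2 : vCh 4 z (cW b e A k m) (chartAt R4 z x) = dCh z x (cW b e A k m x) :=
    dCh_congr_point ((chartAt R4 z).left_inv hx) _ _
  rw [h2] at h1
  exact (inner_cW b hP H k m a x).symm.trans
    ((inner_eq_bil z hx (cW b e A k m x) (e a x)).trans h1.symm)

theorem dv_ent_A (k m : κ) (a d : ι) (z : N) :
    dv (𝓡 4) (e a) (fun x => ent b k m (A d x)) z
      = ∑ l, (dv (𝓡 4) (e a) (dv (𝓡 4) (e d) fun x => chartAt R4 z x l) z
          * cf z l ((dat b T h F hP H).X k m) (chartAt R4 z z)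
        + dv (𝓡 4) (e d) (chartAt R4 z) z l * ∑ i, dv (𝓡 4) (e a) (chartAt R4 z) z i
          * R249.HK286.pd i (cf z l ((dat b T h F hP H).X k m)) (chartAt R4 z z)) := by
  have hz := mem_chart_source R4 z
  have hn := (chartAt R4 z).open_source.mem_nhds hz
  have hc : ∀ l, ∀ x ∈ (chartAt R4 z).source, dv (𝓡 4) (e d) (fun x => chartAt R4 z x l) x
      = dv (𝓡 4) (e d) (chartAt R4 z) x l := fun l x hx =>
    dv_clm (EuclideanSpace.proj l : R4 →L[ℝ] ℝ) (sa_chart hx).md
  have h1 : (fun x => ent b k m (A d x)) =ᶠ[𝓝 z] fun x => ∑ l,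
      dv (𝓡 4) (e d) (fun x => chartAt R4 z x l) x
        * cf z l ((dat b T h F hP H).X k m) (chartAt R4 z x) := by
    filter_upwards [hn] with x hx
    rw [ent_A b T h F hP H k m d hx]
    exact Finset.sum_congr rfl fun l _ => by rw [hc l x hx]
  have s1 : ∀ l, SA (𝓡 4) (dv (𝓡 4) (e d) fun x => chartAt R4 z x l) z := fun l =>
    F.sD d ((EuclideanSpace.proj l : R4 →L[ℝ] ℝ).contDiff.contMDiff.contMDiffAt.comp z (sa_chart hz))
  have s2 : ∀ l, SA (𝓡 4) (fun x => cf z l ((dat b T h F hP H).X k m) (chartAt R4 z x)) z := fun l =>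
    ContMDiffAt.comp (f := chartAt R4 z) z (cd_cf (dat b T h F hP H) z l k m).contMDiffAt (sa_chart hz)
  rw [dv_congr h1, dv_sum' Finset.univ fun l => (s1 l).mul (s2 l)]
  refine Finset.sum_congr rfl fun l _ => ?_
  rw [dv_mul (s1 l) (s2 l), hc l z hz, dv_comp (sa_chart hz).md
    ((cd_cf (dat b T h F hP H) z l k m).differentiableAt (by simp)).hasFDerivAt]
  congr 2
  nth_rewrite 1 [← (EuclideanSpace.basisFun (Fin 4) ℝ).sum_repr (dv (𝓡 4) (e a) (chartAt R4 z) z)]
  rw [map_sum]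
  refine Finset.sum_congr rfl fun i _ => ?_
  rw [map_smul, EuclideanSpace.basisFun_apply]
  rfl

theorem mat_curv (a d : ι) (z : N) : mat b (curv (𝓡 4) e c A a d z)
    = ∑ i, ∑ l, (dv (𝓡 4) (e a) (chartAt R4 z) z i * dv (𝓡 4) (e d) (chartAt R4 z) z l)
      • Fc (dat b T h F hP H) z i l (chartAt R4 z z) := by
  have hz := mem_chart_source R4 z
  ext k m
  have hbr : ∀ l, dv (𝓡 4) (e a) (dv (𝓡 4) (e d) fun x => chartAt R4 z x l) z
      - dv (𝓡 4) (e d) (dv (𝓡 4) (e a) fun x => chartAt R4 z x l) z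
      = ∑ r, c a d r z * dv (𝓡 4) (e r) (chartAt R4 z) z l := fun l => by
    rw [F.br a d (fun x => chartAt R4 z x l) z
      ((EuclideanSpace.proj l : R4 →L[ℝ] ℝ).contDiff.contMDiff.contMDiffAt.comp z (sa_chart hz))]
    exact Finset.sum_congr rfl fun r _ => congrArg _
      (dv_clm (EuclideanSpace.proj l : R4 →L[ℝ] ℝ) (sa_chart hz).md)
  have h1 := curv_alg (fun i => dv (𝓡 4) (e a) (chartAt R4 z) z i)
    (fun i => dv (𝓡 4) (e d) (chartAt R4 z) z i) _ _ _
    (fun l => cf z l ((dat b T h F hP H).X k m) (chartAt R4 z z))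
    (fun i l => R249.HK286.pd i (cf z l ((dat b T h F hP H).X k m)) (chartAt R4 z z)) hbr
  rw [← dv_ent_A b T h F hP H, ← dv_ent_A b T h F hP H] at h1
  have h2 : ∑ l, (∑ r, c a d r z * dv (𝓡 4) (e r) (chartAt R4 z) z l)
      * cf z l ((dat b T h F hP H).X k m) (chartAt R4 z z) = ∑ r, c a d r z * ent b k m (A r z) := by
    simp only [ent_A b T h F hP H k m _ hz, Finset.sum_mul, Finset.mul_sum, mul_assoc]
    exact Finset.sum_comm
  rw [h2, dv_clm (ent b k m) (H.sA d z).md, dv_clm (ent b k m) (H.sA a z).md] at h1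
  have h3 : ent b k m (A a z * A d z) - ent b k m (A d z * A a z)
      = ∑ i, ∑ l, dv (𝓡 4) (e a) (chartAt R4 z) z i * dv (𝓡 4) (e d) (chartAt R4 z) z l *
        ∑ r, (cf z i ((dat b T h F hP H).X k r) (chartAt R4 z z)
            * cf z l ((dat b T h F hP H).X r m) (chartAt R4 z z)
          - cf z l ((dat b T h F hP H).X k r) (chartAt R4 z z)
            * cf z i ((dat b T h F hP H).X r m) (chartAt R4 z z)) := by
    rw [ent_mul, ent_mul, ← Finset.sum_sub_distrib]
    simp only [Finset.mul_sum]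
    rw [Finset.sum_comm]
    simp only [Finset.sum_comm (s := (Finset.univ : Finset (Fin 4))) (t := (Finset.univ : Finset κ))]
    refine Finset.sum_congr rfl fun r _ => ?_
    simp only [ent_A b T h F hP H _ _ _ hz, Fin.sum_univ_four]
    ring
  simp only [Matrix.sum_apply, Matrix.smul_apply, smul_eq_mul, Fc, Matrix.of_apply, mat, Wz78.curv, map_sub,
    map_add, map_sum, map_smul, mul_add, Finset.sum_add_distrib]
  rw [← h1, ← h3]
  ring

/-- the heat density in the frame -/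
theorem dn_dat (z : N) : dn (dat b T h F hP H) z = hd (𝓡 4) e c A p Q z := by
  have hz := mem_chart_source R4 z
  have hQ : Qc (dat b T h F hP H) z (chartAt R4 z z) = mat b (Q z) := by
    ext k l
    change ent b k l (Q ((chartAt R4 z).symm (chartAt R4 z z))) = _
    rw [(chartAt R4 z).left_inv hz]; rfl
  have hp : Pc (dat b T h F hP H) z (chartAt R4 z z) = mat b (p z) := by
    ext k l
    change ent b k l (p ((chartAt R4 z).symm (chartAt R4 z z))) = _
    rw [(chartAt R4 z).left_inv hz]; rfl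
  let B : Matrix κ κ ℝ →ₗ[ℝ] Matrix κ κ ℝ →ₗ[ℝ] ℝ := LinearMap.mk₂ ℝ
    (fun X Y => (X * mat b (p z) * Y * mat b (p z)).trace)
    (fun X X' Y => by simp only [add_mul, Matrix.trace_add])
    (fun r X Y => by simp only [smul_mul_assoc, Matrix.trace_smul])
    (fun X Y Y' => by simp only [add_mul, mul_add, Matrix.trace_add])
    (fun r X Y => by simp only [smul_mul_assoc, mul_smul_comm, Matrix.trace_smul])
  have h1 := bil_sum2 B (fun a i => dv (𝓡 4) (e a) (chartAt R4 z) z i)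
    (fun i l => Fc (dat b T h F hP H) z i l (chartAt R4 z z))
  have h2 : ∀ i k, ∑ a, dv (𝓡 4) (e a) (chartAt R4 z) z i * dv (𝓡 4) (e a) (chartAt R4 z) z k
      = inverseField (chartMetric 4 N z) (chartAt R4 z z) i k := fun i k =>
    congrFun (congrFun (h.gr4_eq hz) i) k
  simp only [← mat_curv b T h F hP H, h2, B, LinearMap.mk₂_apply] at h1
  unfold dn den hd
  simp only [trL_mat b, mat_mul]
  rw [hQ, hp, h1]

end Crest.Agent.X212.Ind95
end
end

-- ▼ part X212/Ind95/Met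
section

/-!
# X212 / IND (helper95), part 3: the Riemannian metric for which a spanning family is a Parseval frame
-/

set_option autoImplicit false
set_option linter.unusedSectionVars false
noncomputable section
open scoped Manifold ContDiff Topology InnerProductSpace Bundle
open MeasureTheory Set Function Filter Bundle

namespace Crest.Agent.X212.Ind95

open Crest.Agent.X212.Sob92 Crest.Agent.X212.Wz78 Crest.Agent.R240 Crest.Agent.R240.Ch
  Crest.Agent.R235.Riem_399

section lin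

variable {ι : Type} [Fintype ι] {v : ι → R4}

/-- the frame operator -/
def fop (v : ι → R4) : R4 →L[ℝ] R4 := ∑ a, (innerSL ℝ (v a)).smulRight (v a)

theorem fop_apply (v : ι → R4) (w : R4) : fop v w = ∑ a, ⟪v a, w⟫_ℝ • v a := by
  simp [fop]

theorem fop_symm (v : ι → R4) (u w : R4) : ⟪fop v u, w⟫_ℝ = ⟪u, fop v w⟫_ℝ := by
  simp only [fop_apply, sum_inner, inner_sum, real_inner_smul_left, real_inner_smul_right]
  exact Finset.sum_congr rfl fun a _ => by rw [real_inner_comm (v a) u]; ring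

theorem fop_pos (h : Submodule.span ℝ (range v) = ⊤) {w : R4} (hw : w ≠ 0) : 0 < ⟪fop v w, w⟫_ℝ := by
  have h1 : ⟪fop v w, w⟫_ℝ = ∑ a, ⟪v a, w⟫_ℝ ^ 2 := by
    simp only [fop_apply, sum_inner, real_inner_smul_left, sq]
  rw [h1]
  by_contra hc
  have h2 : ∑ a, ⟪v a, w⟫_ℝ ^ 2 = 0 :=
    le_antisymm (not_lt.1 hc) (Finset.sum_nonneg fun a _ => sq_nonneg _)
  rw [Finset.sum_eq_zero_iff_of_nonneg fun a _ => sq_nonneg _] at h2
  have h3 : w ∈ Submodule.span ℝ (range v) := by rw [h]; trivial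
  obtain ⟨ξ, hξ⟩ := (Submodule.mem_span_range_iff_exists_fun ℝ).1 h3
  apply hw
  rw [← inner_self_eq_zero (𝕜 := ℝ)]
  nth_rewrite 1 [← hξ]
  rw [sum_inner]
  refine Finset.sum_eq_zero fun a _ => ?_
  rw [real_inner_smul_left, pow_eq_zero_iff (two_ne_zero) |>.1 (h2 a (Finset.mem_univ a)), mul_zero]

theorem fop_unit (h : Submodule.span ℝ (range v) = ⊤) : IsUnit (fop v) := by
  have hi : Injective (fop v) := by
    refine (injective_iff_map_eq_zero _).2 fun w hw => ?_
    by_contra h0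
    have := fop_pos h h0
    rw [hw, inner_zero_left] at this
    exact lt_irrefl _ this
  have hb : Bijective (fop v : R4 →ₗ[ℝ] R4) := ⟨hi, LinearMap.injective_iff_surjective.1 hi⟩
  exact ContinuousLinearMap.isUnit_iff_bijective.2 hb

/-- the scalar product for which `v` is a Parseval frame -/
def gv (v : ι → R4) : R4 →L[ℝ] R4 →L[ℝ] ℝ :=
  (innerSL ℝ : R4 →L[ℝ] R4 →L[ℝ] ℝ).comp (Ring.inverse (fop v))

theorem gv_apply (v : ι → R4) (u w : R4) : gv v u w = ⟪Ring.inverse (fop v) u, w⟫_ℝ := rfl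

theorem fop_inv (h : Submodule.span ℝ (range v) = ⊤) (w : R4) :
    fop v (Ring.inverse (fop v) w) = w :=
  congrArg (fun T : R4 →L[ℝ] R4 => T w) (Ring.mul_inverse_cancel _ (fop_unit h))

theorem inv_fop (h : Submodule.span ℝ (range v) = ⊤) (w : R4) :
    Ring.inverse (fop v) (fop v w) = w :=
  congrArg (fun T : R4 →L[ℝ] R4 => T w) (Ring.inverse_mul_cancel _ (fop_unit h))

theorem gv_symm (h : Submodule.span ℝ (range v) = ⊤) (u w : R4) : gv v u w = gv v w u := by
  rw [gv_apply, gv_apply]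
  nth_rewrite 1 [← fop_inv h w]
  rw [← fop_symm, fop_inv h, real_inner_comm]

theorem gv_pos (h : Submodule.span ℝ (range v) = ⊤) {w : R4} (hw : w ≠ 0) : 0 < gv v w w := by
  have h1 : Ring.inverse (fop v) w ≠ 0 := fun h0 => hw (by rw [← fop_inv h w, h0, map_zero])
  have h2 := fop_pos h h1
  rw [fop_inv h, real_inner_comm] at h2
  exact h2

theorem gv_pars (h : Submodule.span ℝ (range v) = ⊤) (w : R4) : ∑ a, gv v (v a) w • v a = w := by
  nth_rewrite 2 [← fop_inv h w]
  rw [fop_apply]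
  exact Finset.sum_congr rfl fun a _ => by rw [gv_symm h, gv_apply, real_inner_comm]

theorem gv_uniq (h : Submodule.span ℝ (range v) = ⊤) {b : R4 →L[ℝ] R4 →L[ℝ] ℝ}
    (hb : ∀ w, ∑ a, b (v a) w • v a = w) : b = gv v := by
  ext u w
  rw [← fop_inv h u, gv_apply, inv_fop h, fop_apply, map_sum, sum_apply]
  nth_rewrite 2 [← hb w]
  rw [inner_sum]
  refine Finset.sum_congr rfl fun a _ => ?_
  rw [map_smul, smul_apply, real_inner_smul_right, real_inner_comm, smul_eq_mul,
    mul_comm]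

theorem contDiffAt_gv {X : Type*} [NormedAddCommGroup X] [NormedSpace ℝ X] {v : ι → X → R4} {y : X}
    (hv : ∀ a, ContDiffAt ℝ ∞ (v a) y) (h : Submodule.span ℝ (range fun a => v a y) = ⊤) :
    ContDiffAt ℝ ∞ (fun y => gv fun a => v a y) y := by
  have h1 : ContDiffAt ℝ ∞ (fun y => fop fun a => v a y) y := by
    refine ContDiffAt.sum fun a _ => ?_
    exact ((innerSL ℝ : R4 →L[ℝ] R4 →L[ℝ] ℝ).contDiff.contDiffAt.comp y (hv a)).smulRight (hv a)
  obtain ⟨u, hu⟩ := fop_unit h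
  have h2 : ContDiffAt ℝ ∞ (Ring.inverse : (R4 →L[ℝ] R4) → R4 →L[ℝ] R4) (fop fun a => v a y) := by
    rw [← hu]; exact contDiffAt_ringInverse ℝ u
  have h3 : ContDiffAt ℝ ∞ (fun y => Ring.inverse (fop fun a => v a y)) y :=
    ContDiffAt.comp (g := (Ring.inverse : (R4 →L[ℝ] R4) → R4 →L[ℝ] R4))
      (f := fun y => fop fun a => v a y) y h2 h1
  exact contDiffAt_const.clm_comp h3

end lin

variable {N : Type} [tN : TopologicalSpace N] [ChartedSpace R4 N] [IsManifold (𝓡 4) ∞ N]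
  {ι : Type} [Fintype ι] {e : ι → (x : N) → TangentSpace (𝓡 4) x}

theorem met_gv (he : ∀ a x, ContMDiffAt (𝓡 4) (𝓡 4).tangent ∞
      (fun x => (⟨x, e a x⟩ : TangentBundle (𝓡 4) N)) x)
    (hs : ∀ x, Submodule.span ℝ (range fun a => e a x) = ⊤) :
    Met (M := N) (fun x => gv fun a => e a x) where
  smooth p y hy := by
    have hsp : ∀ y ∈ (chartAt R4 p).target,
        Submodule.span ℝ (range fun a => repV p (e a) y) = ⊤ := by
      intro y hy
      have hx := symm_mem hy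
      rw [eq_top_iff]
      intro w _
      have h1 : tcc p ((chartAt R4 p).symm y) ((chartAt R4 p).symm y) w
          ∈ Submodule.span ℝ (range fun a => atV (E := R4) (e a) ((chartAt R4 p).symm y)) := by
        have h0 : Submodule.span ℝ (range fun a => atV (E := R4) (e a) ((chartAt R4 p).symm y)) = ⊤ :=
          hs _
        rw [h0]; trivial
      obtain ⟨ξ, hξ⟩ := (Submodule.mem_span_range_iff_exists_fun ℝ).1 h1
      refine (Submodule.mem_span_range_iff_exists_fun ℝ).2 ⟨ξ, ?_⟩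
      rw [← tcc_cancel hx w, ← hξ, map_sum]
      simp only [map_smul]
      rfl
    have h1 : ∀ y ∈ (chartAt R4 p).target,
        rep p (fun x => gv fun a => e a x) y = gv fun a => repV p (e a) y := by
      intro y hy
      have hx := symm_mem hy
      refine gv_uniq (hsp y hy) fun w => ?_
      have h2 := gv_pars (v := fun a => atV (E := R4) (e a) ((chartAt R4 p).symm y)) (hs _)
        (tcc p ((chartAt R4 p).symm y) ((chartAt R4 p).symm y) w)
      nth_rewrite 2 [← tcc_cancel hx w]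
      rw [← h2, map_sum]
      refine Finset.sum_congr rfl fun a _ => ?_
      rw [map_smul, rep_apply]
      unfold repV
      rw [tcc_cancel' hx]
      rfl
    have h3 : ContDiffAt ℝ ∞ (fun y => gv fun a => repV p (e a) y) y := by
      refine contDiffAt_gv (fun a => ?_) (hsp y hy)
      have h4 := (contMDiffAt_V (symm_mem hy) (e a)).1 (he a _)
      rwa [(chartAt R4 p).right_inv hy] at h4
    exact h3.contDiffWithinAt.congr h1 (h1 y hy)
  symm x u v := gv_symm (hs x) u v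
  pos x v hv := gv_pos (hs x) hv

/-- the Riemannian instances -/
theorem exists_riem4 [T2Space N] [ConnectedSpace N] (he : ∀ a x, ContMDiffAt (𝓡 4) (𝓡 4).tangent ∞
      (fun x => (⟨x, e a x⟩ : TangentBundle (𝓡 4) N)) x)
    (hs : ∀ x, Submodule.span ℝ (range fun a => e a x) = ⊤) :
    ∃ (_ : RiemannianBundle (fun x : N => TangentSpace (𝓡 4) x))
      (_ : IsContMDiffRiemannianBundle (𝓡 4) ∞ R4 (fun x : N => TangentSpace (𝓡 4) x))
      (mM : MetricSpace N), mM.toPseudoMetricSpace.toUniformSpace.toTopologicalSpace = tN ∧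
      (∀ x y : N, mM.edist x y = Manifold.riemannianEDist (𝓡 4) x y) ∧
      ∀ (x : N) (v : TangentSpace (𝓡 4) x), ∑ a, (inner ℝ (e a x) v : ℝ) • e a x = v := by
  obtain ⟨rb, crb, mM, h1, h2, h3⟩ := exists_riem (met_gv he hs)
  refine ⟨rb, crb, mM, h1, h2, fun x v => ?_⟩
  simp only [h3]
  exact gv_pars (hs x) v

end Crest.Agent.X212.Ind95
end
end

-- ▼ part X212/Ind95/Raw
section

/-!
# X212 / IND (helper95), part 6: McKean-Singer and the heat density in the frame format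

`index_raw` : for an adjoint pair with the weak Weitzenboeck identities (`Pr2`) on a closed connected
four-manifold with a frame `An.Fr` (any boundaryless model):
`dim ker D - dim ker D' = ∫ (hd A p Q - hd A' p' Q')`.
-/

set_option autoImplicit false
set_option maxSynthPendingDepth 3
set_option linter.unusedSectionVars false
noncomputable section
open scoped Manifold ContDiff Topology InnerProductSpace Bundle ENNReal
open MeasureTheory Set Function Filter Bundle

namespace Crest.Agent.X212.Ind95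

open Crest.Agent.X212.Sob92 Crest.Agent.X212.Wz78 Crest.Agent.X212.An
open Crest.Agent.R249.Tv57 Crest.Agent.R249.Tz805

variable {ι : Type} [Fintype ι]
  {V W : Type} [NormedAddCommGroup V] [InnerProductSpace ℝ V] [FiniteDimensional ℝ V]
  [NormedAddCommGroup W] [InnerProductSpace ℝ W] [FiniteDimensional ℝ W]

theorem trL_proj_ne {κ : Type} [Fintype κ] (b : OrthonormalBasis κ ℝ V) {p : V →L[ℝ] V}
    (hs : ∀ v w, ⟪p v, w⟫_ℝ = ⟪v, p w⟫_ℝ) (hi : p * p = p) :
    p ≠ 0 ↔ ∃ k, ent b k k p ≠ 0 := by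
  refine ⟨fun h => ?_, fun ⟨k, hk⟩ h => hk (by rw [h, map_zero])⟩
  by_contra hc
  push Not at hc
  apply h
  have h1 : ∀ k, p (b k) = 0 := fun k => by
    rw [← inner_self_eq_zero (𝕜 := ℝ), hs]
    have h2 := hc k
    rw [← hi] at h2
    exact h2
  ext v
  rw [← b.sum_repr' v, map_sum]
  simp [h1]

theorem trL_proj_pos {p : V →L[ℝ] V} (hs : ∀ v w, ⟪p v, w⟫_ℝ = ⟪v, p w⟫_ℝ) (hi : p * p = p) :
    p ≠ 0 ↔ trL p ≠ 0 := by
  refine ⟨fun h => ?_, fun h h0 => h (by rw [h0, map_zero])⟩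
  obtain ⟨k, hk⟩ := (trL_proj_ne (stdOrthonormalBasis ℝ V) hs hi).1 h
  have h1 : ∀ k, 0 ≤ ent (stdOrthonormalBasis ℝ V) k k p := fun k => by
    rw [← hi]
    change 0 ≤ ⟪_, p (p _)⟫_ℝ
    rw [← hs]; exact real_inner_self_nonneg
  rw [trL_eq (stdOrthonormalBasis ℝ V)]
  intro h0
  exact hk ((Finset.sum_eq_zero_iff_of_nonneg fun k _ => h1 k).1 h0 k (Finset.mem_univ k))

section riem

variable {N : Type} [MetricSpace N] [ChartedSpace R4 N] [IsManifold (𝓡 4) ∞ N]
  [RiemannianBundle (fun p : N => TangentSpace (𝓡 4) p)]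
  [IsContMDiffRiemannianBundle (𝓡 4) ∞ R4 (fun p : N => TangentSpace (𝓡 4) p)]
  [IsRiemannianManifold (𝓡 4) N] [MeasurableSpace N] [BorelSpace N]
  [SecondCountableTopology N] [Nonempty N]
  {e : ι → (x : N) → TangentSpace (𝓡 4) x} {P : ι → ι → N → ℝ} {c : ι → ι → ι → N → ℝ}
  {A : ι → N → V →L[ℝ] V} {p Q : N → V →L[ℝ] V} {A' : ι → N → W →L[ℝ] W} {p' Q' : N → W →L[ℝ] W}
  {D : (N → V) → N → W} {D' : (N → W) → N → V}
  {κ κ' : Type} [Fintype κ] [Fintype κ'] (b : OrthonormalBasis κ ℝ V) (b' : OrthonormalBasis κ' ℝ W)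
  (T : ToF 4 N) (h : Pars e) (F : Frm (𝓡 4) e P c)
  (hP : ∀ a d x, (inner ℝ (e a x) (e d x) : ℝ) = P a d x)

theorem ss_toV (H : Hb (𝓡 4) e P A p Q) {u : κ → N → ℝ} (hu : SmV (n := 4) u)
    (hs : (dat b T h F hP H).Sec u) : SS (𝓡 4) p (toV b u) :=
  ⟨sa_toV b hu, (sec_dat b T h F hP H _).1 (by rwa [co_toV])⟩

theorem toV_lin (r s : ℝ) (u v : κ → N → ℝ) :
    toV b (fun x z => r * u x z + s * v x z) = fun z => r • toV b u z + s • toV b v z := by
  funext z
  simp only [toV, add_smul, mul_smul, Finset.sum_add_distrib, Finset.smul_sum]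

theorem co_lin (r s : ℝ) (u v : N → V) :
    co b (fun z => r • u z + s • v z) = fun x z => r * co b u x z + s * co b v x z := by
  funext x z
  simp only [co, inner_add_right, real_inner_smul_right]

/-- the pair of R249 -/
def dpair (R : Pr2 (𝓡 4) e P (μHE[4] : Measure N) A p Q A' p' Q' D D') :
    DPair (dat b T h F hP R.h0) (dat b' T h F hP R.h1) where
  A u := co b' (D (toV b u))
  B w := co b (D' (toV b' w))
  smA u hu := sm_co b' (R.sm0 _ (sa_toV b hu))
  smB u hu := sm_co b (R.sm1 _ (sa_toV b' hu))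
  secA u hu hs := (sec_dat b' T h F hP R.h1 _).2 (R.sec0 _ (ss_toV b T h F hP R.h0 hu hs))
  secB u hu hs := (sec_dat b T h F hP R.h0 _).2 (R.sec1 _ (ss_toV b' T h F hP R.h1 hu hs))
  linA r s u v hu hv := by rw [toV_lin, R.lin0 r s _ _ (sa_toV b hu) (sa_toV b hv), co_lin]
  linB r s u v hu hv := by rw [toV_lin, R.lin1 r s _ _ (sa_toV b' hu) (sa_toV b' hv), co_lin]
  adj u w hu hw hsu hsw := by
    have h1 := R.adj _ _ (ss_toV b T h F hP R.h0 hu hsu) (ss_toV b' T h F hP R.h1 hw hsw)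
    simp only [← dot_co b', ← dot_co b, co_toV] at h1
    exact h1
  w0 u v hu hv hsu hsv := by
    have h1 := R.w0 _ _ (ss_toV b T h F hP R.h0 hu hsu) (ss_toV b T h F hP R.h0 hv hsv)
    simp only [← ed_dat b T h F hP R.h0 (sa_toV b hu) (sa_toV b hv), co_toV] at h1
    simp only [dot_co]
    exact h1
  w1 u v hu hv hsu hsv := by
    have h1 := R.w1 _ _ (ss_toV b' T h F hP R.h1 hu hsu) (ss_toV b' T h F hP R.h1 hv hsv)
    simp only [← ed_dat b' T h F hP R.h1 (sa_toV b' hu) (sa_toV b' hv), co_toV] at h1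
    simp only [dot_co]
    exact h1

theorem kdim_of (H : Hb (𝓡 4) e P A p Q)
    (hl : ∀ (r s : ℝ) u v, (∀ x, SA (𝓡 4) u x) → (∀ x, SA (𝓡 4) v x) →
      D (fun x => r • u x + s • v x) = fun x => r • D u x + s • D v x) {d : ℕ}
    (K : KerD (dat b T h F hP H) (fun u => co b' (D (toV b u))) d) : KDim (𝓡 4) p D d := by
  have hz : ∀ u : N → W, (∀ k z, co b' u k z = 0) → u = 0 := fun u hu => by
    rw [← toV_co b' u]
    funext z
    simp [toV, hu]
  refine ⟨fun i => toV b (K.u i), ?_, fun u => ⟨fun ⟨hu, h0⟩ => ?_, fun hu => ?_⟩⟩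
  · rw [Fintype.linearIndependent_iff]
    intro g hg
    refine Fintype.linearIndependent_iff.1 K.li g ?_
    funext k z
    have h1 := congrArg (fun u => co b u k z) hg
    simp only [co, Finset.sum_apply, Pi.smul_apply, inner_sum, real_inner_smul_right, Pi.zero_apply,
      inner_zero_right] at h1
    simp only [Finset.sum_apply, Pi.smul_apply, smul_eq_mul, Pi.zero_apply]
    rw [← h1]
    exact Finset.sum_congr rfl fun i _ => congrArg _ (congrFun (congrFun (co_toV b (K.u i)) k) z).symm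
  · have h1 := K.span (co b u) (sm_co b hu.1) ((sec_dat b T h F hP H _).2 hu.2) fun k z => by
      rw [toV_co, h0]; exact inner_zero_right _
    refine (Submodule.mem_span_range_iff_exists_fun ℝ).2 ⟨fun i => ip 4 (co b u) (K.u i), ?_⟩
    nth_rewrite 2 [← toV_co b u]
    funext z
    simp only [Finset.sum_apply, Pi.smul_apply, toV, Finset.smul_sum, smul_smul]
    rw [Finset.sum_comm]
    exact Finset.sum_congr rfl fun k _ => by rw [← Finset.sum_smul, ← h1 k z]
  · induction hu using Submodule.span_induction with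
    | mem u hu =>
      obtain ⟨i, rfl⟩ := hu
      exact ⟨ss_toV b T h F hP H (K.smooth i) (K.sec i), hz _ (K.ker i)⟩
    | zero =>
      refine ⟨⟨fun x => contMDiffAt_const, fun x => map_zero _⟩, ?_⟩
      have h1 := hl 0 0 0 0 (fun x => contMDiffAt_const) (fun x => contMDiffAt_const)
      simp only [zero_smul, add_zero] at h1
      exact h1
    | add u v _ _ hu hv =>
      refine ⟨⟨fun x => (hu.1.1 x).add (hv.1.1 x), fun x => ?_⟩, ?_⟩
      · rw [Pi.add_apply, map_add, hu.1.2, hv.1.2]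
      · have h1 := hl 1 1 u v hu.1.1 hv.1.1
        simp only [one_smul, hu.2, hv.2, Pi.zero_apply, add_zero] at h1
        exact h1
    | smul r u _ hu =>
      refine ⟨⟨fun x => SA.smul (f := fun _ => r) contMDiffAt_const (hu.1.1 x), fun x => ?_⟩, ?_⟩
      · rw [Pi.smul_apply, map_smul, hu.1.2]
      · have h1 := hl r 0 u u hu.1.1 hu.1.1
        simp only [zero_smul, hu.2, Pi.zero_apply, add_zero, smul_zero] at h1
        exact h1

include h F hP in
theorem index_riem [CompactSpace N] [ConnectedSpace N]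
    (R : Pr2 (𝓡 4) e P (μHE[4] : Measure N) A p Q A' p' Q' D D') (hne : ∃ x, p x ≠ 0) :
    ∃ d d' : ℕ, KDim (𝓡 4) p D d ∧ KDim (𝓡 4) p' D' d' ∧
      (d : ℝ) - d' = ∫ x, (hd (𝓡 4) e c A p Q x - hd (𝓡 4) e c A' p' Q' x) ∂(μHE[4] : Measure N) := by
  let b := stdOrthonormalBasis ℝ V
  let b' := stdOrthonormalBasis ℝ W
  let T := R249.Tof352.tof 4 N
  obtain ⟨z, hz⟩ := hne
  have hz' : p' z ≠ 0 := by
    rw [trL_proj_pos (R.h1.symp z) (R.h1.idem z), ← R.rk]
    exact (trL_proj_pos (R.h0.symp z) (R.h0.idem z)).1 hz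
  have hq : ∀ {X : Type} [NormedAddCommGroup X] [InnerProductSpace ℝ X] [FiniteDimensional ℝ X]
      {κ : Type} [Fintype κ] (b : OrthonormalBasis κ ℝ X) (Q p : X →L[ℝ] X),
      (∀ v w, ⟪p v, w⟫_ℝ = ⟪v, p w⟫_ℝ) → ∑ k, ∑ l, ent b k l Q * ent b k l p = trL (Q * p) := by
    intro X _ _ _ κ _ b Q p hp
    rw [trL_eq b]
    refine Finset.sum_congr rfl fun k _ => ?_
    rw [ent_mul]
    refine Finset.sum_congr rfl fun l _ => ?_
    rw [ent_apply b k l p, ent_apply b l k p, ← hp, real_inner_comm]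
  obtain ⟨d, d', K, K', -, h2⟩ := index_D R249.HK286.chartStmt (dpair b b' T h F hP R)
    ⟨z, (trL_proj_ne b (R.h0.symp z) (R.h0.idem z)).1 hz⟩
    ⟨z, (trL_proj_ne b' (R.h1.symp z) (R.h1.idem z)).1 hz'⟩
    (fun z => (trL_eq b _).symm.trans ((R.rk z).trans (trL_eq b' _)))
    (fun z => (hq b _ _ (R.h0.symp z)).trans ((R.trQ z).trans (hq b' _ _ (R.h1.symp z)).symm))
  refine ⟨d, d', kdim_of b b' T h F hP R.h0 R.lin0 K, kdim_of b' b T h F hP R.h1 R.lin1 K', ?_⟩
  simp only [dn_dat] at h2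
  exact h2

end riem

theorem index_f4 {N : Type} [tN : TopologicalSpace N] [ChartedSpace R4 N] [IsManifold (𝓡 4) ∞ N]
    [MeasurableSpace N] [BorelSpace N] [T2Space N] [CompactSpace N] [ConnectedSpace N]
    {e : ι → (x : N) → TangentSpace (𝓡 4) x} {P : ι → ι → N → ℝ} {c : ι → ι → ι → N → ℝ}
    {μ : Measure N} (F : F4 e P c μ)
    {A : ι → N → V →L[ℝ] V} {p Q : N → V →L[ℝ] V} {A' : ι → N → W →L[ℝ] W} {p' Q' : N → W →L[ℝ] W}
    {D : (N → V) → N → W} {D' : (N → W) → N → V} (R : Pr2 (𝓡 4) e P μ A p Q A' p' Q' D D')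
    (hne : ∃ x, p x ≠ 0) :
    ∃ d d' : ℕ, KDim (𝓡 4) p D d ∧ KDim (𝓡 4) p' D' d' ∧
      (d : ℝ) - d' = ∫ x, (hd (𝓡 4) e c A p Q x - hd (𝓡 4) e c A' p' Q' x) ∂μ := by
  obtain ⟨rb, crb, mM, rfl, hd, hp⟩ := exists_riem4 F.frm.se F.span
  have : IsRiemannianManifold (𝓡 4) N := ⟨hd⟩
  have : SecondCountableTopology N := ChartedSpace.secondCountable_of_sigmaCompact R4 N
  have hμ := mu_eq hp F
  subst hμ
  exact index_riem hp F.frm (Pars.eq_P hp F.frm F.ker) R hne

variable {E : Type} [NormedAddCommGroup E] [NormedSpace ℝ E] [FiniteDimensional ℝ E]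
  [MeasurableSpace E] [BorelSpace E]
  {HM : Type} [TopologicalSpace HM] {I : ModelWithCorners ℝ E HM} [I.Boundaryless]
  {M : Type} [TopologicalSpace M] [ChartedSpace HM M] [IsManifold I ∞ M]
  [MeasurableSpace M] [BorelSpace M]

theorem Hb.rc (L : E ≃L[ℝ] R4) {e : ι → (x : M) → TangentSpace I x} {P : ι → ι → M → ℝ}
    {A : ι → M → V →L[ℝ] V} {p Q : M → V →L[ℝ] V} (H : Hb I e P A p Q) :
    Hb (M := Rc I L M) (𝓡 4) (fun a => rce L (e a)) P A p Q where
  sA a x := (sa_rc le_rfl).2 (H.sA a x)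
  proj := H.proj
  skew := H.skew
  sp x := (sa_rc le_rfl).2 (H.sp x)
  symp := H.symp
  idem := H.idem
  par a x := by
    have h := H.par a x
    rw [← show dv (𝓡 4) (rce L (e a)) (up I L p) x = dv I (e a) p x from
      congrFun (dv_rc (e a) p) x] at h
    exact h
  sQ x := (sa_rc le_rfl).2 (H.sQ x)
  symQ := H.symQ
  comm := H.comm

theorem nab_rc (L : E ≃L[ℝ] R4) (e : ι → (x : M) → TangentSpace I x) (A : ι → M → V →L[ℝ] V) (a : ι)
    (u : M → V) : nab (M := Rc I L M) (𝓡 4) (fun a => rce L (e a)) A a u = nab I e A a u :=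
  funext fun x => congrArg (· + A a x (u x)) (congrFun (dv_rc (e a) u) x)

theorem curv_rc (L : E ≃L[ℝ] R4) (e : ι → (x : M) → TangentSpace I x) (c : ι → ι → ι → M → ℝ)
    (A : ι → M → V →L[ℝ] V) (a d : ι) :
    curv (M := Rc I L M) (𝓡 4) (fun a => rce L (e a)) c A a d = curv I e c A a d :=
  funext fun x => congrArg₂
    (fun S T => S - T + (A a x * A d x - A d x * A a x) - ∑ k, c a d k x • A k x)
    (congrFun (dv_rc (e a) (A d)) x) (congrFun (dv_rc (e d) (A a)) x)

theorem sa_rc' (L : E ≃L[ℝ] R4) {X : Type} [NormedAddCommGroup X] [NormedSpace ℝ X] (u : M → X) :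
    (∀ x, SA (M := Rc I L M) (𝓡 4) u x) ↔ ∀ x, SA I u x :=
  forall_congr' fun _ => sa_rc le_rfl

theorem ss_rc (L : E ≃L[ℝ] R4) (p : M → V →L[ℝ] V) (u : M → V) :
    SS (M := Rc I L M) (𝓡 4) p u ↔ SS I p u := and_congr (sa_rc' L u) Iff.rfl

theorem Pr2.rc (L : E ≃L[ℝ] R4) {e : ι → (x : M) → TangentSpace I x} {P : ι → ι → M → ℝ}
    {μ : Measure M}
    {A : ι → M → V →L[ℝ] V} {p Q : M → V →L[ℝ] V} {A' : ι → M → W →L[ℝ] W} {p' Q' : M → W →L[ℝ] W}
    {D : (M → V) → M → W} {D' : (M → W) → M → V} (R : Pr2 I e P μ A p Q A' p' Q' D D') :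
    Pr2 (M := Rc I L M) (𝓡 4) (fun a => rce L (e a)) P μ A p Q A' p' Q' D D' where
  h0 := R.h0.rc _
  h1 := R.h1.rc _
  sm0 u hu := (sa_rc' _ _).2 (R.sm0 u ((sa_rc' _ _).1 hu))
  sm1 u hu := (sa_rc' _ _).2 (R.sm1 u ((sa_rc' _ _).1 hu))
  sec0 u hu := R.sec0 u ((ss_rc _ _ _).1 hu)
  sec1 u hu := R.sec1 u ((ss_rc _ _ _).1 hu)
  lin0 r s u v hu hv := R.lin0 r s u v ((sa_rc' _ _).1 hu) ((sa_rc' _ _).1 hv)
  lin1 r s u v hu hv := R.lin1 r s u v ((sa_rc' _ _).1 hu) ((sa_rc' _ _).1 hv)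
  adj u w hu hw := R.adj u w ((ss_rc _ _ _).1 hu) ((ss_rc _ _ _).1 hw)
  w0 := fun (u v : M → V) hu hv => by
    have h := R.w0 u v ((ss_rc _ _ _).1 hu) ((ss_rc _ _ _).1 hv)
    simp only [← nab_rc L] at h
    exact h
  w1 := fun (u v : M → W) hu hv => by
    have h := R.w1 u v ((ss_rc _ _ _).1 hu) ((ss_rc _ _ _).1 hv)
    simp only [← nab_rc L] at h
    exact h
  loc0 := R.loc0
  loc1 := R.loc1
  rk := R.rk
  trQ := R.trQ

theorem KDim.of_rc (L : E ≃L[ℝ] R4) {p : M → V →L[ℝ] V} {D : (M → V) → M → W} {d : ℕ}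
    (h : KDim (M := Rc I L M) (𝓡 4) p D d) : KDim I p D d := by
  obtain ⟨β, hβ, h1⟩ := h
  exact ⟨β, hβ, fun u => (and_congr (ss_rc _ _ _).symm Iff.rfl).trans (h1 u)⟩

/-- **McKean-Singer and the heat density**, any model -/
theorem index_raw [T2Space M] [CompactSpace M] [ConnectedSpace M] (hE : Module.finrank ℝ E = 4)
    (F : Fr I M ι) (hv : F.IsVol)
    {A : ι → M → V →L[ℝ] V} {p Q : M → V →L[ℝ] V} {A' : ι → M → W →L[ℝ] W} {p' Q' : M → W →L[ℝ] W}
    {D : (M → V) → M → W} {D' : (M → W) → M → V} (R : Pr2 I F.e F.P F.μ A p Q A' p' Q' D D')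
    (hne : ∃ x, p x ≠ 0) :
    ∃ d d' : ℕ, KDim I p D d ∧ KDim I p' D' d' ∧
      (d : ℝ) - d' = ∫ x, (hd I F.e F.c A p Q x - hd I F.e F.c A' p' Q' x) ∂F.μ := by
  obtain ⟨d, d', h1, h2, h3⟩ := index_f4 (f4_of_fr hE F hv) (R.rc (L4 hE)) hne
  refine ⟨d, d', h1.of_rc _, h2.of_rc _, ?_⟩
  simp only [hd, ← curv_rc (L4 hE)]
  exact h3

end Crest.Agent.X212.Ind95
end
end

-- ▼ part X212/Ind95/Dis
section

/-!
# X212 / IND (helper95), part 9: disconnected manifolds

Restriction of frames to open subsets (`rse`, `dv_res`), extension by zero from clopen subsets (`ex`),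
`index_all` : `index_raw` without connectedness.
-/

set_option autoImplicit false
set_option maxSynthPendingDepth 3
set_option linter.unusedSectionVars false
noncomputable section
open scoped Manifold ContDiff Topology InnerProductSpace Bundle ENNReal
open MeasureTheory Set Function Filter Bundle TopologicalSpace

namespace Crest.Agent.X212.Ind95

open Crest.Agent.X212.Sob92 Crest.Agent.X212.Wz78 Crest.Agent.X212.An

section res

variable {E : Type} [NormedAddCommGroup E] [NormedSpace ℝ E]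
  {HM : Type} [TopologicalSpace HM] {I : ModelWithCorners ℝ E HM}
  {M : Type} [TopologicalSpace M] [ChartedSpace HM M] [IsManifold I ∞ M]
  {X : Type*} [NormedAddCommGroup X] [NormedSpace ℝ X] {U : Opens M}

variable (U) in
/-- restriction of a vector field -/
def rse (e : (x : M) → TangentSpace I x) (x : U) : TangentSpace I x := (show E from e x.1)

theorem dv_res (e : (x : M) → TangentSpace I x) (u : M → X) :
    dv I (rse U e) (fun y : U => u y) = fun y : U => dv I e u y := by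
  funext x
  have h1 : MDifferentiableAt I 𝓘(ℝ, X) (fun y : U => u y) x ↔ MDifferentiableAt I 𝓘(ℝ, X) u x :=
    (differentiableWithinAt_localInvariantProp.liftPropAt_iff_comp_subtype_val _ _).symm
  have h2 : writtenInExtChartAt I 𝓘(ℝ, X) x (fun y : U => u y)
      =ᶠ[𝓝 (extChartAt I x.1 x.1)] writtenInExtChartAt I 𝓘(ℝ, X) x.1 u := by
    have h3 : Tendsto I.symm (𝓝 (extChartAt I x.1 x.1)) (𝓝 (chartAt HM x.1 x.1)) := by
      have h4 := I.continuous_symm.tendsto (extChartAt I x.1 x.1)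
      rwa [show I.symm (extChartAt I x.1 x.1) = chartAt HM x.1 x.1 from I.left_inv _] at h4
    filter_upwards [h3.eventually (U.chartAt_subtype_val_symm_eventuallyEq (H := HM) (x := x))] with y hy
    exact (congrArg u hy).symm
  by_cases h : MDifferentiableAt I 𝓘(ℝ, X) u x
  · exact congrArg (fun T : E →L[ℝ] X => T (e x.1)) ((h1.2 h).mfderiv.trans
      ((h2.fderivWithin_eq_of_nhds (𝕜 := ℝ)).trans h.mfderiv.symm))
  · exact congrArg (fun T : E →L[ℝ] X => T (e x.1))
      ((mfderiv_zero_of_not_mdifferentiableAt fun h' => h (h1.1 h')).trans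
        (mfderiv_zero_of_not_mdifferentiableAt h).symm)

theorem sec_iff {e : (x : M) → TangentSpace I x} {x : M} :
    ContMDiffAt I I.tangent ∞ (fun x => (⟨x, e x⟩ : TangentBundle I M)) x
      ↔ SA I (dv I e (extChartAt I x)) x := by
  refine (contMDiffAt_section (IB := I) (n := ∞) (F := E) (s := e) x).trans ?_
  refine Filter.EventuallyEq.contMDiffAt_iff ?_
  filter_upwards [(chartAt HM x).open_source.mem_nhds (mem_chart_source HM x)] with y hy
  rw [← Trivialization.continuousLinearMapAt_apply_of_mem ℝ _ (by simpa using hy),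
    TangentBundle.continuousLinearMapAt_trivializationAt hy]
  rfl

theorem sa_res {u : M → X} {x : U} : SA I (fun y : U => u y) x ↔ SA I u x := contMDiffAt_subtype_iff

theorem sm_rse {e : (x : M) → TangentSpace I x} {x : U}
    (h : ContMDiffAt I I.tangent ∞ (fun x => (⟨x, e x⟩ : TangentBundle I M)) x) :
    ContMDiffAt I I.tangent ∞ (fun x => (⟨x, rse U e x⟩ : TangentBundle I U)) x := by
  rw [sec_iff] at h ⊢
  have h1 : dv I (rse U e) (extChartAt I x) = fun y : U => dv I e (extChartAt I x.1) y :=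
    dv_res e (extChartAt I x.1)
  rw [h1]
  exact sa_res.2 h

/-- extension by zero -/
def ex {X : Type*} [Zero X] (u : U → X) : M → X := Subtype.val.extend u 0

theorem ex_val {X : Type*} [Zero X] (u : U → X) (x : U) : ex u x = u x :=
  Subtype.val_injective.extend_apply _ _ _

theorem ex_res {X : Type*} [Zero X] (u : U → X) : (fun y : U => ex u y) = u := funext (ex_val u)

theorem ex_out {X : Type*} [Zero X] (u : U → X) {x : M} (hx : x ∉ U) : ex u x = 0 :=
  Function.extend_apply' _ _ _ fun ⟨y, hy⟩ => hx (hy ▸ y.2)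

theorem ex_ev {X : Type*} [Zero X] (hU : IsClosed (U : Set M)) (u : U → X) {x : M} (hx : x ∉ U) :
    ex u =ᶠ[𝓝 x] fun _ => 0 := by
  filter_upwards [hU.isOpen_compl.mem_nhds hx] with y hy using ex_out u hy

theorem res_ev {X : Type*} [Zero X] (u : M → X) (x : U) : ex (fun y : U => u y) =ᶠ[𝓝 x.1] u := by
  filter_upwards [U.2.mem_nhds x.2] with y hy using ex_val (fun y : U => u y) ⟨y, hy⟩

theorem ex_congr {X : Type*} [Zero X] {u v : U → X} {x : U} (h : u =ᶠ[𝓝 x] v) :
    ex u =ᶠ[𝓝 x.1] ex v := by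
  rw [← U.2.isOpenEmbedding_subtypeVal.map_nhds_eq x, EventuallyEq, eventually_map]
  filter_upwards [h] with y hy
  exact (ex_val u y).trans (hy.trans (ex_val v y).symm)

theorem sa_ex (hU : IsClosed (U : Set M)) {u : U → X} (hu : ∀ x, SA I u x) (x : M) :
    SA I (ex u) x := by
  by_cases hx : x ∈ U
  · exact (sa_res (x := ⟨x, hx⟩)).1 (by rw [ex_res]; exact hu _)
  · exact contMDiffAt_const.congr_of_eventuallyEq (ex_ev hU u hx)

theorem ex_lin (r s : ℝ) (u v : U → X) :
    ex (fun x => r • u x + s • v x) = fun x => r • ex u x + s • ex v x := by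
  funext x
  by_cases hx : x ∈ U
  · have := fun u : U → X => ex_val u ⟨x, hx⟩
    simp only [this]
  · simp only [ex_out _ hx, smul_zero, add_zero]

variable {ι : Type} [Fintype ι] {e : ι → (x : M) → TangentSpace I x} {P : ι → ι → M → ℝ}
  {c : ι → ι → ι → M → ℝ}
  {V W : Type} [NormedAddCommGroup V] [InnerProductSpace ℝ V] [FiniteDimensional ℝ V]
  [NormedAddCommGroup W] [InnerProductSpace ℝ W] [FiniteDimensional ℝ W]

variable (U) in
theorem frm_res (F : Frm I e P c) : Frm I (fun a => rse U (e a)) (fun a b (y : U) => P a b y)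
    fun a b k (y : U) => c a b k y where
  se a x := sm_rse (F.se a x)
  sP a b x := sa_res.2 (F.sP a b x)
  sc a b k x := sa_res.2 (F.sc a b k x)
  pr x := F.pr x
  proj a x := F.proj a x
  br a b f x hf := by
    rw [← ex_res f] at hf ⊢
    simp only [dv_res]
    exact F.br a b _ _ (sa_res.1 hf)

theorem nab_res (A : ι → M → V →L[ℝ] V) (a : ι) (u : M → V) (x : U) :
    nab I (fun a => rse U (e a)) (fun a (y : U) => A a y) a (fun y : U => u y) x = nab I e A a u x :=
  congrArg (· + A a x (u x)) (congrFun (dv_res (e a) u) x)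

theorem hd_res (A : ι → M → V →L[ℝ] V) (p Q : M → V →L[ℝ] V) (x : U) :
    hd I (fun a => rse U (e a)) (fun a b k (y : U) => c a b k y) (fun a (y : U) => A a y)
      (fun y : U => p y) (fun y : U => Q y) x = hd I e c A p Q x := by
  simp only [hd, curv, dv_res]

variable {A : ι → M → V →L[ℝ] V} {p Q : M → V →L[ℝ] V} {A' : ι → M → W →L[ℝ] W}
  {p' Q' : M → W →L[ℝ] W} {D : (M → V) → M → W} {D' : (M → W) → M → V}

variable (U) in
theorem Hb.res (H : Hb I e P A p Q) : Hb I (fun a => rse U (e a)) (fun a b (y : U) => P a b y)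
    (fun a (y : U) => A a y) (fun y : U => p y) fun y : U => Q y where
  sA a x := sa_res.2 (H.sA a x)
  proj a x := H.proj a x
  skew a x := H.skew a x
  sp x := sa_res.2 (H.sp x)
  symp x := H.symp x
  idem x := H.idem x
  par a x := by rw [dv_res]; exact H.par a x
  sQ x := sa_res.2 (H.sQ x)
  symQ x := H.symQ x
  comm x := H.comm x

theorem ss_ex (hU : IsClosed (U : Set M)) {u : U → V} (hu : SS I (fun y : U => p y) u) :
    SS I p (ex u) := by
  refine ⟨sa_ex hU hu.1, fun x => ?_⟩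
  by_cases hx : x ∈ U
  · have h := hu.2 ⟨x, hx⟩
    rw [← ex_val u] at h
    exact h
  · rw [ex_out _ hx, map_zero]

variable (U) in
/-- restriction of an operator -/
def rsD (D : (M → V) → M → W) (u : U → V) (x : U) : W := D (ex u) x

/-- linearity on smooth functions -/
def Lin (I : ModelWithCorners ℝ E HM) (D : (M → V) → M → W) : Prop :=
  ∀ (r s : ℝ) u v, (∀ x, SA I u x) → (∀ x, SA I v x) →
    D (fun x => r • u x + s • v x) = fun x => r • D u x + s • D v x

theorem Lin.zero (h : Lin I D) : D (fun _ => 0) = fun _ => 0 := by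
  have h1 := h 0 0 0 0 (fun x => contMDiffAt_const) (fun x => contMDiffAt_const)
  simpa only [zero_smul, add_zero] using h1

theorem D_out (hU : IsClosed (U : Set M)) (h : Lin I D) (hl : ∀ u v x, u =ᶠ[𝓝 x] v → D u x = D v x)
    (u : U → V) {x : M} (hx : x ∉ U) : D (ex u) x = 0 := by
  rw [hl _ _ _ (ex_ev hU u hx), h.zero]

variable [MeasurableSpace M] [BorelSpace M] {μ : Measure M}

theorem int_res {f : M → ℝ} (hf : ∀ x ∉ U, f x = 0) :
    ∫ x : U, f x ∂(μ.comap Subtype.val) = ∫ x, f x ∂μ :=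
  (integral_subtype_comap U.2.measurableSet f).trans
    (setIntegral_eq_integral_of_forall_compl_eq_zero hf)

theorem w_res (hU : IsClosed (U : Set M)) (h : Lin I D) (hl : ∀ u v x, u =ᶠ[𝓝 x] v → D u x = D v x)
    (hw : ∀ u v, SS I p u → SS I p v → ∫ x, ⟪D u x, D v x⟫_ℝ ∂μ
      = ∫ x, (∑ a, ⟪nab I e A a u x, nab I e A a v x⟫_ℝ + ⟪Q x (u x), v x⟫_ℝ) ∂μ)
    (u v : U → V) (hu : SS I (fun y : U => p y) u) (hv : SS I (fun y : U => p y) v) :
    ∫ x, ⟪rsD U D u x, rsD U D v x⟫_ℝ ∂(μ.comap Subtype.val)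
      = ∫ x : U, (∑ a, ⟪nab I (fun a => rse U (e a)) (fun a (y : U) => A a y) a u x,
          nab I (fun a => rse U (e a)) (fun a (y : U) => A a y) a v x⟫_ℝ
        + ⟪Q x (u x), v x⟫_ℝ) ∂(μ.comap Subtype.val) := by
  have h1 := hw _ _ (ss_ex hU hu) (ss_ex hU hv)
  rw [← int_res (U := U) fun x hx => by rw [D_out hU h hl v hx, inner_zero_right],
    ← int_res (U := U) fun x hx => by
      have : ∀ a, nab I e A a (ex v) x = 0 := fun a => by
        rw [nab_congr a (ex_ev hU v hx), nab, dv_const, map_zero, add_zero, Pi.zero_apply]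
      simp only [this, ex_out v hx, inner_zero_right, Finset.sum_const_zero, add_zero]] at h1
  simp only [← nab_res, ex_val] at h1
  exact h1

theorem Pr2.res (hU : IsClosed (U : Set M)) (R : Pr2 I e P μ A p Q A' p' Q' D D') :
    Pr2 I (fun a => rse U (e a)) (fun a b (y : U) => P a b y) (μ.comap Subtype.val)
      (fun a (y : U) => A a y) (fun y : U => p y) (fun y : U => Q y)
      (fun a (y : U) => A' a y) (fun y : U => p' y) (fun y : U => Q' y) (rsD U D) (rsD U D') where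
  h0 := R.h0.res U
  h1 := R.h1.res U
  sm0 u hu x := sa_res.2 (R.sm0 _ (sa_ex hU hu) x)
  sm1 u hu x := sa_res.2 (R.sm1 _ (sa_ex hU hu) x)
  sec0 u hu x := R.sec0 _ (ss_ex hU hu) x
  sec1 u hu x := R.sec1 _ (ss_ex hU hu) x
  lin0 r s u v hu hv := by
    funext x
    rw [rsD, ex_lin, R.lin0 r s _ _ (sa_ex hU hu) (sa_ex hU hv)]
    rfl
  lin1 r s u v hu hv := by
    funext x
    rw [rsD, ex_lin, R.lin1 r s _ _ (sa_ex hU hu) (sa_ex hU hv)]
    rfl
  adj u w hu hw := by
    have h1 := R.adj _ _ (ss_ex hU hu) (ss_ex hU hw)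
    rw [← int_res (U := U) fun x hx => by rw [ex_out w hx, inner_zero_right],
      ← int_res (U := U) fun x hx => by rw [ex_out u hx, inner_zero_left]] at h1
    simp only [ex_val] at h1
    exact h1
  w0 := w_res hU R.lin0 R.loc0 R.w0
  w1 := w_res hU R.lin1 R.loc1 R.w1
  loc0 u v x h := R.loc0 _ _ _ (ex_congr h)
  loc1 u v x h := R.loc1 _ _ _ (ex_congr h)
  rk x := R.rk x
  trQ x := R.trQ x

/-- kernel sections supported in `S` -/
def kerS (p : M → V →L[ℝ] V) (h : Lin I D) (S : Set M) : Submodule ℝ (M → V) where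
  carrier := {u | (SS I p u ∧ D u = 0) ∧ ∀ x ∉ S, u x = 0}
  add_mem' := fun {u v} hu hv => by
    refine ⟨⟨⟨fun x => (hu.1.1.1 x).add (hv.1.1.1 x), fun x => ?_⟩, ?_⟩, fun x hx => ?_⟩
    · rw [Pi.add_apply, map_add, hu.1.1.2, hv.1.1.2]
    · have h1 := h 1 1 u v hu.1.1.1 hv.1.1.1
      simp only [one_smul, hu.1.2, hv.1.2, Pi.zero_apply, add_zero] at h1
      exact h1
    · rw [Pi.add_apply, hu.2 x hx, hv.2 x hx, add_zero]
  zero_mem' := ⟨⟨⟨fun x => contMDiffAt_const, fun x => map_zero _⟩, h.zero⟩, fun _ _ => rfl⟩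
  smul_mem' := fun r u hu => by
    refine ⟨⟨⟨fun x => SA.smul (f := fun _ => r) contMDiffAt_const (hu.1.1.1 x), fun x => ?_⟩, ?_⟩,
      fun x hx => ?_⟩
    · rw [Pi.smul_apply, map_smul, hu.1.1.2]
    · have h1 := h r 0 u u hu.1.1.1 hu.1.1.1
      simp only [zero_smul, hu.1.2, Pi.zero_apply, add_zero, smul_zero] at h1
      exact h1
    · rw [Pi.smul_apply, hu.2 x hx, smul_zero]

theorem ex_mem (hU : IsClosed (U : Set M)) (h : Lin I D) (hl : ∀ u v x, u =ᶠ[𝓝 x] v → D u x = D v x)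
    {u : U → V} (hu : SS I (fun y : U => p y) u) (h0 : rsD U D u = 0) : ex u ∈ kerS p h U := by
  refine ⟨⟨ss_ex hU hu, funext fun x => ?_⟩, fun x hx => ex_out u hx⟩
  by_cases hx : x ∈ U
  · exact congrFun h0 ⟨x, hx⟩
  · exact D_out hU h hl u hx

theorem res_ker (hl : ∀ u v x, u =ᶠ[𝓝 x] v → D u x = D v x) {u : M → V} (hu : SS I p u)
    (h0 : D u = 0) : SS I (fun y : U => p y) (fun y : U => u y) ∧ rsD U D (fun y : U => u y) = 0 :=
  ⟨⟨fun x => sa_res.2 (hu.1 x), fun x => hu.2 x⟩,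
    funext fun x => (hl _ _ _ (res_ev u x)).trans (congrFun h0 x)⟩

theorem kerS_rank (hU : IsClosed (U : Set M)) (h : Lin I D)
    (hl : ∀ u v x, u =ᶠ[𝓝 x] v → D u x = D v x) {d : ℕ} (K : KDim I (fun y : U => p y) (rsD U D) d) :
    FiniteDimensional ℝ (kerS p h U) ∧ Module.finrank ℝ (kerS p h U) = d := by
  refine K.finrank' (LinearMap.funLeft ℝ V (Subtype.val : U → M) ∘ₗ (kerS p h U).subtype) ?_
    fun u => ⟨?_, fun hu => ⟨⟨ex u, ex_mem hU h hl hu.1 hu.2⟩, ex_res u⟩⟩
  · refine (injective_iff_map_eq_zero _).2 fun u hu => Subtype.ext (funext fun x => ?_)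
    by_cases hx : x ∈ U
    · exact congrFun hu ⟨x, hx⟩
    · exact u.2.2 x hx
  · rintro ⟨v, rfl⟩
    exact res_ker hl v.2.1.1 v.2.1.2

theorem kdim_sum {J : Type} [Fintype J] (U : J → Opens M) (hU : ∀ j, IsClosed (U j : Set M))
    (cp : M → J) (hcp : ∀ x j, x ∈ U j ↔ cp x = j) (h : Lin I D)
    (hl : ∀ u v x, u =ᶠ[𝓝 x] v → D u x = D v x) {d : J → ℕ}
    (K : ∀ j, KDim I (fun y : U j => p y) (rsD (U j) D) (d j)) : KDim I p D (∑ j, d j) := by
  classical
  have hf := fun j => (kerS_rank (hU j) h hl (K j)).1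
  let Φ : (∀ j, kerS p h (U j)) →ₗ[ℝ] (M → V) :=
    ∑ j, (kerS p h (U j)).subtype ∘ₗ LinearMap.proj j
  have hΦ : ∀ v x, Φ v x = (v (cp x)).1 x := fun v x => by
    simp only [Φ, LinearMap.sum_apply, Finset.sum_apply, LinearMap.comp_apply, LinearMap.proj_apply,
      Submodule.subtype_apply]
    exact Finset.sum_eq_single (cp x)
      (fun j _ hj => (v j).2.2 x fun hx => hj ((hcp x j).1 hx).symm) fun h => absurd (Finset.mem_univ _) h
  have hi : Injective Φ := by
    refine (injective_iff_map_eq_zero _).2 fun v hv => funext fun j => Subtype.ext (funext fun x => ?_)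
    by_cases hx : x ∈ U j
    · obtain rfl := (hcp x j).1 hx
      exact (hΦ v x).symm.trans (congrFun hv x)
    · exact (v j).2.2 x hx
  have hr : ∀ u, (SS I p u ∧ D u = 0) ↔ u ∈ LinearMap.range Φ := fun u => by
    constructor
    · intro hu
      refine ⟨fun j => ⟨ex fun y : U j => u y, ex_mem (hU j) h hl (res_ker hl hu.1 hu.2).1
        (res_ker hl hu.1 hu.2).2⟩, funext fun x => ?_⟩
      rw [hΦ]
      exact ex_val (fun y : U (cp x) => u y) ⟨x, (hcp x _).2 rfl⟩
    · rintro ⟨v, rfl⟩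
      have h1 : Φ v ∈ kerS p h univ := by
        simp only [Φ, LinearMap.sum_apply]
        exact Submodule.sum_mem _ fun j _ => ⟨(v j).2.1, fun x hx => absurd (mem_univ x) hx⟩
      exact h1.1
  have h2 : Module.finrank ℝ (∀ j, kerS p h (U j)) = ∑ j, d j := by
    rw [Module.finrank_pi_fintype]
    exact Finset.sum_congr rfl fun j _ => (kerS_rank (hU j) h hl (K j)).2
  let b := Module.finBasisOfFinrankEq ℝ _ h2
  refine ⟨Φ ∘ b, b.linearIndependent.map' Φ (LinearMap.ker_eq_bot.2 hi), fun u => ?_⟩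
  rw [hr, range_comp, ← Submodule.map_span, b.span_eq, Submodule.map_top]

theorem kdim_zero (h : Lin I D) (hp : ∀ x, p x = 0) : KDim I p D 0 := by
  refine ⟨Fin.elim0, linearIndependent_empty_type, fun u => ?_⟩
  rw [range_eq_empty, Submodule.span_empty, Submodule.mem_bot]
  refine ⟨fun hu => funext fun x => ?_, ?_⟩
  · rw [← hu.1.2 x, hp]; rfl
  · rintro rfl
    exact ⟨⟨fun x => contMDiffAt_const, fun x => map_zero _⟩, h.zero⟩

theorem Hb.cont_hd (H : Hb I e P A p Q) (F : Frm I e P c) : Continuous (hd I e c A p Q) := by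
  have t : ∀ {T : M → V →L[ℝ] V}, (∀ x, SA I T x) → Continuous fun x => trL (T x * p x * T x * p x) :=
    fun {T} hT => (trL (V := V)).continuous_of_finiteDimensional.comp
      (continuous_iff_continuousAt.2 fun x =>
        ((((hT x).mul (H.sp x)).mul (hT x)).mul (H.sp x)).continuousAt)
  exact (continuous_const.mul (t H.sQ)).add (continuous_const.mul
    (continuous_finsetSum _ fun a _ => continuous_finsetSum _ fun b _ =>
      t fun x => F.sCurv (fun a => H.sA a x) a b))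

end res

section f4

variable {N : Type} [TopologicalSpace N] [ChartedSpace R4 N] [IsManifold (𝓡 4) ∞ N]
  [MeasurableSpace N] [BorelSpace N] {ι : Type} [Fintype ι]
  {e : ι → (x : N) → TangentSpace (𝓡 4) x} {P : ι → ι → N → ℝ} {c : ι → ι → ι → N → ℝ}
  {μ : Measure N}
  {V W : Type} [NormedAddCommGroup V] [InnerProductSpace ℝ V] [FiniteDimensional ℝ V]
  [NormedAddCommGroup W] [InnerProductSpace ℝ W] [FiniteDimensional ℝ W]
  {A : ι → N → V →L[ℝ] V} {p Q : N → V →L[ℝ] V} {A' : ι → N → W →L[ℝ] W} {p' Q' : N → W →L[ℝ] W}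
  {D : (N → V) → N → W} {D' : (N → W) → N → V}

theorem F4.res (U : Opens N) (F : F4 e P c μ) : F4 (fun a => rse U (e a))
    (fun a b (y : U) => P a b y) (fun a b k (y : U) => c a b k y) (μ.comap Subtype.val) where
  frm := frm_res U F.frm
  span x := F.span x
  ker x := F.ker x
  vol x₀ := by
    obtain ⟨O, h1, h2, h3, h4⟩ := F.vol x₀
    have hs : ∀ y : U, y.1 ∈ O → y ∈ (chartAt R4 x₀).source := fun y hy => by
      rw [Opens.chartAt_eq, OpenPartialHomeomorph.subtypeRestr_source]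
      exact h3 hy
    refine ⟨Subtype.val ⁻¹' O, h1.preimage continuous_subtype_val, h2, hs, fun s hm hO => ?_⟩
    have h5 : MeasurableSet (Subtype.val '' s) := U.2.measurableSet.subtype_image hm
    have h6 : chartAt R4 x₀ '' s = chartAt R4 x₀.1 '' (Subtype.val '' s) := by
      rw [image_image]; rfl
    refine ((MeasurableEmbedding.subtype_coe U.2.measurableSet).comap_apply μ s).trans ?_
    refine (h4 _ h5 (image_subset_iff.2 hO)).trans ?_
    rw [← h6]
    refine setLIntegral_congr_fun ?_ ?_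
    · rw [h6]
      exact ms_img (I := 𝓡 4) x₀.1 h5 (by
        rw [extChartAt_source]; exact (image_subset_iff.2 hO).trans h3)
    · rintro _ ⟨y, hy, rfl⟩
      have h7 : (chartAt R4 x₀.1).symm (chartAt R4 x₀ y) = y := (chartAt R4 x₀.1).left_inv (h3 (hO hy))
      have h8 : ∀ a, dv (𝓡 4) (rse U (e a)) (chartAt R4 x₀) y = dv (𝓡 4) (e a) (chartAt R4 x₀.1) y :=
        fun a => congrFun (dv_res (e a) (chartAt R4 x₀.1)) y
      beta_reduce
      rw [h7, (chartAt R4 x₀).left_inv (hs y (hO hy))]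
      simp only [gr4, h8]

theorem index_f4' [T2Space N] [CompactSpace N] [ConnectedSpace N] (F : F4 e P c μ)
    (R : Pr2 (𝓡 4) e P μ A p Q A' p' Q' D D') :
    ∃ d d' : ℕ, KDim (𝓡 4) p D d ∧ KDim (𝓡 4) p' D' d' ∧
      (d : ℝ) - d' = ∫ x, (hd (𝓡 4) e c A p Q x - hd (𝓡 4) e c A' p' Q' x) ∂μ := by
  by_cases h : ∃ x, p x ≠ 0
  · exact index_f4 F R h
  push Not at h
  have h' : ∀ x, p' x = 0 := fun x => by
    by_contra h0
    exact (trL_proj_pos (R.h1.symp x) (R.h1.idem x)).1 h0 (by rw [← R.rk, h, map_zero])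
  refine ⟨0, 0, kdim_zero R.lin0 h, kdim_zero R.lin1 h', ?_⟩
  simp [hd, h, h']

theorem index_f4_all [T2Space N] [CompactSpace N] [IsFiniteMeasure μ] (F : F4 e P c μ)
    (R : Pr2 (𝓡 4) e P μ A p Q A' p' Q' D D') :
    ∃ d d' : ℕ, KDim (𝓡 4) p D d ∧ KDim (𝓡 4) p' D' d' ∧
      (d : ℝ) - d' = ∫ x, (hd (𝓡 4) e c A p Q x - hd (𝓡 4) e c A' p' Q' x) ∂μ := by
  classical
  have : LocallyConnectedSpace N := ChartedSpace.locallyConnectedSpace R4 N
  let J := ConnectedComponents N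
  have : Fintype J := Fintype.ofFinite J
  let U : J → Opens N := fun j => ⟨ConnectedComponents.mk ⁻¹' {j},
    (isOpen_discrete _).preimage ConnectedComponents.continuous_coe⟩
  have hU : ∀ j, IsClosed (U j : Set N) := fun j =>
    (isClosed_discrete {j}).preimage ConnectedComponents.continuous_coe
  have hc : ∀ j, ConnectedSpace (U j) := fun j => by
    obtain ⟨x, rfl⟩ := ConnectedComponents.surjective_coe j
    refine isConnected_iff_connectedSpace.1 ?_
    change IsConnected (ConnectedComponents.mk ⁻¹' {ConnectedComponents.mk x})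
    rw [connectedComponents_preimage_singleton]
    exact isConnected_connectedComponent
  have hk : ∀ j, CompactSpace (U j) := fun j => isCompact_iff_compactSpace.1 (hU j).isCompact
  choose d d' h1 h2 h3 using fun j => index_f4' (F.res (U j)) (R.res (hU j))
  refine ⟨_, _, kdim_sum U hU ConnectedComponents.mk (fun _ _ => Iff.rfl) R.lin0 R.loc0 h1,
    kdim_sum U hU ConnectedComponents.mk (fun _ _ => Iff.rfl) R.lin1 R.loc1 h2, ?_⟩
  have hi : Integrable (fun x => hd (𝓡 4) e c A p Q x - hd (𝓡 4) e c A' p' Q' x) μ :=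
    ((R.h0.cont_hd F.frm).sub (R.h1.cont_hd F.frm)).integrable_of_hasCompactSupport
      (HasCompactSupport.of_compactSpace _)
  have h4 := integral_iUnion_fintype (μ := μ) (s := fun j => (U j : Set N))
    (fun j => (U j).2.measurableSet)
    (fun j k hjk => disjoint_left.2 fun x hj hk => hjk (Eq.trans (Eq.symm hj) hk))
    fun j => hi.integrableOn
  rw [show ⋃ j, (U j : Set N) = univ from eq_univ_of_forall fun x => mem_iUnion.2 ⟨_, rfl⟩,
    Measure.restrict_univ] at h4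
  rw [h4, Nat.cast_sum, Nat.cast_sum, ← Finset.sum_sub_distrib]
  refine Finset.sum_congr rfl fun j _ => ?_
  rw [h3 j]
  simp only [hd_res]
  exact integral_subtype_comap (U j).2.measurableSet
    fun x => hd (𝓡 4) e c A p Q x - hd (𝓡 4) e c A' p' Q' x

end f4

variable {E : Type} [NormedAddCommGroup E] [NormedSpace ℝ E] [FiniteDimensional ℝ E]
  [MeasurableSpace E] [BorelSpace E]
  {HM : Type} [TopologicalSpace HM] {I : ModelWithCorners ℝ E HM} [I.Boundaryless]
  {M : Type} [TopologicalSpace M] [ChartedSpace HM M] [IsManifold I ∞ M]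
  [MeasurableSpace M] [BorelSpace M] {ι : Type} [Fintype ι]
  {V W : Type} [NormedAddCommGroup V] [InnerProductSpace ℝ V] [FiniteDimensional ℝ V]
  [NormedAddCommGroup W] [InnerProductSpace ℝ W] [FiniteDimensional ℝ W]

/-- **McKean-Singer and the heat density** on any closed four-manifold -/
theorem index_all [T2Space M] [CompactSpace M] (hE : Module.finrank ℝ E = 4)
    (F : Fr I M ι) (hv : F.IsVol)
    {A : ι → M → V →L[ℝ] V} {p Q : M → V →L[ℝ] V} {A' : ι → M → W →L[ℝ] W} {p' Q' : M → W →L[ℝ] W}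
    {D : (M → V) → M → W} {D' : (M → W) → M → V} (R : Pr2 I F.e F.P F.μ A p Q A' p' Q' D D') :
    ∃ d d' : ℕ, KDim I p D d ∧ KDim I p' D' d' ∧
      (d : ℝ) - d' = ∫ x, (hd I F.e F.c A p Q x - hd I F.e F.c A' p' Q' x) ∂F.μ := by
  have : IsFiniteMeasure (α := Rc I (L4 hE) M) F.μ := (inferInstance : IsFiniteMeasure F.μ)
  obtain ⟨d, d', h1, h2, h3⟩ := index_f4_all (f4_of_fr hE F hv) (R.rc (L4 hE))
  refine ⟨d, d', h1.of_rc _, h2.of_rc _, ?_⟩
  simp only [hd, ← curv_rc (L4 hE)]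
  exact h3

end Crest.Agent.X212.Ind95
end
end

-- ▼ part X212/Ind95/Main
section

/-!
# X212 / IND (helper95), part 10: the index theorem for Dirac operators on closed four-manifolds

* `index_gr`   : graded Clifford modules;
* `index_main` : grading by the chirality.
-/

set_option autoImplicit false
set_option linter.unusedSectionVars false
noncomputable section
open scoped Manifold ContDiff Topology InnerProductSpace
open MeasureTheory Set Function Filter

namespace Crest.Agent.X212.Ind95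

open Crest.Agent.X212.Sob92 Crest.Agent.X212.Wz78 Crest.Agent.X212.An

section lin

variable {V : Type*} [NormedAddCommGroup V] [InnerProductSpace ℝ V] [CompleteSpace V] {T : V →L[ℝ] V}

theorem skew_iff : Skew T ↔ star T = -T := by
  rw [ContinuousLinearMap.star_eq_adjoint, eq_comm, ContinuousLinearMap.eq_adjoint_iff]
  simp only [neg_apply, inner_neg_left, neg_eq_iff_eq_neg]
  rfl

theorem sym_iff : (∀ v w, ⟪T v, w⟫_ℝ = ⟪v, T w⟫_ℝ) ↔ star T = T := by
  rw [ContinuousLinearMap.star_eq_adjoint, eq_comm, ContinuousLinearMap.eq_adjoint_iff]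

end lin

variable {E : Type} [NormedAddCommGroup E] [NormedSpace ℝ E] [FiniteDimensional ℝ E]
  [MeasurableSpace E] [BorelSpace E]
  {HM : Type} [TopologicalSpace HM] {I : ModelWithCorners ℝ E HM}
  {M : Type} [TopologicalSpace M] [ChartedSpace HM M] [IsManifold I ∞ M]
  [MeasurableSpace M] {ι : Type} [Fintype ι]
  {V : Type} [NormedAddCommGroup V] [InnerProductSpace ℝ V] [FiniteDimensional ℝ V]

theorem dir_lin (e : ι → (x : M) → TangentSpace I x) (ρ A : ι → M → V →L[ℝ] V) :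
    Lin I (dir I e ρ A) := fun r s u v hu hv => by
  funext x
  have h1 : ∀ (r : ℝ) {u : M → V}, SA I u x → SA I (fun y => r • u y) x := fun r _ h =>
    SA.smul (f := fun _ => r) contMDiffAt_const h
  have h2 : ∀ (r : ℝ) (a : ι) {u : M → V}, SA I u x →
      nab I e A a (fun y => r • u y) x = r • nab I e A a u x := fun r a _ h => by
    rw [nab_smul a (f := fun _ => r) contMDiffAt_const h, dv_const, Pi.zero_apply, zero_smul, zero_add]
  simp only [dir, nab_add _ (h1 r (hu x)) (h1 s (hv x)), h2 _ _ (hu x), h2 _ _ (hv x), map_add, map_smul,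
    Finset.sum_add_distrib, Finset.smul_sum]

theorem dir_loc (e : ι → (x : M) → TangentSpace I x) (ρ A : ι → M → V →L[ℝ] V) (u v : M → V) (x : M)
    (h : u =ᶠ[𝓝 x] v) : dir I e ρ A u x = dir I e ρ A v x := by
  simp only [dir, nab_congr _ h]

theorem skew_curv {e : ι → (x : M) → TangentSpace I x} {c : ι → ι → ι → M → ℝ}
    {A : ι → M → V →L[ℝ] V} (hs : ∀ a x, SA I (A a) x) (hA : ∀ a x, Skew (A a x)) (a b : ι) (x : M) :
    Skew (curv I e c A a b x) := by
  have := FiniteDimensional.complete ℝ V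
  have h1 : ∀ a b, star (dv I (e a) (A b) x) = -dv I (e a) (A b) x := fun a b => by
    refine skew_iff.1 fun v w => ?_
    have h2 := dv_clm (e := e a) ((innerSL ℝ w).comp (ContinuousLinearMap.apply ℝ V v)
      + (innerSL ℝ v).comp (ContinuousLinearMap.apply ℝ V w)) (hs b x).md
    have h3 : (fun y => ((innerSL ℝ w).comp (ContinuousLinearMap.apply ℝ V v)
        + (innerSL ℝ v).comp (ContinuousLinearMap.apply ℝ V w)) (A b y)) = fun _ => 0 := by
      funext y
      change ⟪w, A b y v⟫_ℝ + ⟪v, A b y w⟫_ℝ = 0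
      rw [real_inner_comm, hA b y, neg_add_cancel]
    rw [h3, dv_const] at h2
    rw [real_inner_comm]
    exact eq_neg_of_add_eq_zero_left h2.symm
  have h4 := fun a => skew_iff.1 (hA a x)
  rw [skew_iff, curv]
  simp only [star_sub, star_add, star_mul, star_sum, star_smul, star_trivial, h1, h4, neg_mul_neg,
    smul_neg, Finset.sum_neg_distrib]
  abel

/-- harmonic sections of `q` -/
def K (F : Fr I M ι) (ρ A : ι → M → V →L[ℝ] V) (q : M → V →L[ℝ] V) : Submodule ℝ (M → V) where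
  carrier := {u | Sm I u ∧ (∀ x, q x (u x) = u x) ∧ dir I F.e ρ A u = 0}
  add_mem' := fun {u v} hu hv =>
    have h := (kerS q (dir_lin F.e ρ A) univ).add_mem (x := u) (y := v)
      ⟨⟨⟨hu.1, hu.2.1⟩, hu.2.2⟩, fun x hx => absurd (mem_univ x) hx⟩
      ⟨⟨⟨hv.1, hv.2.1⟩, hv.2.2⟩, fun x hx => absurd (mem_univ x) hx⟩
    ⟨h.1.1.1, h.1.1.2, h.1.2⟩
  zero_mem' := ⟨contMDiff_const, fun _ => map_zero _, (dir_lin F.e ρ A).zero⟩
  smul_mem' := fun r u hu =>
    have h := (kerS q (dir_lin F.e ρ A) univ).smul_mem r (x := u)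
      ⟨⟨⟨hu.1, hu.2.1⟩, hu.2.2⟩, fun x hx => absurd (mem_univ x) hx⟩
    ⟨h.1.1.1, h.1.1.2, h.1.2⟩

theorem mem_K {F : Fr I M ι} {ρ A : ι → M → V →L[ℝ] V} {q : M → V →L[ℝ] V} {u : M → V} :
    u ∈ K F ρ A q ↔ Sm I u ∧ (∀ x, q x (u x) = u x) ∧ dir I F.e ρ A u = 0 := Iff.rfl

/-- a Clifford module with a metric Clifford connection on a four-manifold -/
structure Dm (F : Fr I M ι) (Γ : ι → ι → ι → M → ℝ) (p : M → V →L[ℝ] V)
    (ρ A : ι → M → V →L[ℝ] V) : Prop where
  dim : Module.finrank ℝ E = 4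
  vol : F.IsVol
  riem : Riem F
  lc : LC I F.e F.P F.c Γ
  cc : CC I F.e F.P Γ p ρ A
  skA : ∀ a x, Skew (A a x)
  skρ : ∀ a x, Skew (ρ a x)

/-- a parallel grading `p = p₀ + p₁` which is reversed by Clifford multiplication -/
structure Gr (F : Fr I M ι) (p : M → V →L[ℝ] V) (ρ A : ι → M → V →L[ℝ] V)
    (p₀ p₁ : M → V →L[ℝ] V) : Prop where
  s0 : Sm I p₀
  sym0 : ∀ x v w, ⟪p₀ x v, w⟫_ℝ = ⟪v, p₀ x w⟫_ℝ
  sym1 : ∀ x v w, ⟪p₁ x v, w⟫_ℝ = ⟪v, p₁ x w⟫_ℝ
  id0 : ∀ x, p₀ x * p₀ x = p₀ x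
  id1 : ∀ x, p₁ x * p₁ x = p₁ x
  add : ∀ x, p₀ x + p₁ x = p x
  o01 : ∀ x, p₀ x * p₁ x = 0
  sw : ∀ a x, ρ a x * p₀ x = p₁ x * ρ a x
  par0 : ∀ a x, nabE I F.e A a p₀ x = 0

variable {F : Fr I M ι} {Γ : ι → ι → ι → M → ℝ} {p p₀ p₁ : M → V →L[ℝ] V}
  {ρ A : ι → M → V →L[ℝ] V} {o : ι → ι → ι → ι → M → ℝ}

theorem Gr.eq1 (G : Gr F p ρ A p₀ p₁) : p₁ = fun x => p x - p₀ x :=
  funext fun x => by rw [← G.add, add_sub_cancel_left]

theorem Gr.o10 (G : Gr F p ρ A p₀ p₁) (x : M) : p₁ x * p₀ x = 0 := by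
  have := FiniteDimensional.complete ℝ V
  rw [← sym_iff.1 (G.sym0 x), ← sym_iff.1 (G.sym1 x), ← star_mul, G.o01, star_zero]

theorem Gr.symm (G : Gr F p ρ A p₀ p₁) (C : CC I F.e F.P Γ p ρ A) : Gr F p ρ A p₁ p₀ where
  s0 := by rw [G.eq1]; exact fun x => (C.sp x).sub (G.s0 x)
  sym0 := G.sym1
  sym1 := G.sym0
  id0 := G.id1
  id1 := G.id0
  add x := (add_comm _ _).trans (G.add x)
  o01 := G.o10
  sw a x := by
    have h1 := (C.cl x).pr a
    have h2 := (C.cl x).pl a
    rw [← G.add, mul_add, G.sw] at h1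
    rw [← G.add, add_mul, add_comm] at h2
    exact add_left_cancel (h1.trans h2.symm)
  par0 a x := by
    rw [G.eq1, nabE_sub a (C.sp x) (G.s0 x), G.par0, sub_zero]
    exact C.par a x

theorem Dm.kp (D : Dm F Γ p ρ A) (x : M) : Kp (fun a b => F.P a b x) (p x) (fun a => ρ a x)
    (fun a b => curv I F.e F.c A a b x) fun a b k l => Rm I F.e F.c Γ a b k l x where
  cl := D.cc.cl x
  anti a b := D.lc.curv_anti D.cc.toCon a b x
  p1 a b := D.lc.curv_p1 (frm F) (sep F) D.cc.toCon a b x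
  cp a b := D.cc.curv_p (frm F) a b x
  cρ a b m := D.cc.curv_comp D.lc (frm F) a b m x
  cu := D.lc.curvT (frm F) (sep F) x
  p4 a b m l := D.lc.Rm_p4 (frm F) a b m l x

theorem Gr.curv0 (G : Gr F p ρ A p₀ p₁) (C : CC I F.e F.P Γ p ρ A) (a b : ι) (x : M) :
    curv I F.e F.c A a b x * p₀ x = p₀ x * curv I F.e F.c A a b x :=
  (frm F).curv_par (fun a => C.sm a x) (G.s0 x) (fun a => Eventually.of_forall (G.par0 a)) a b

theorem Gr.gp (G : Gr F p ρ A p₀ p₁) (C : CC I F.e F.P Γ p ρ A) (x : M) :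
    Gp (p x) (fun a => ρ a x) (fun a b => curv I F.e F.c A a b x) (p₀ x) (p₁ x) :=
  ⟨G.id0 x, G.id1 x, G.add x, G.o01 x, G.o10 x, fun a => G.sw a x, fun a => (G.symm C).sw a x,
    fun a b => G.curv0 C a b x, fun a b => (G.symm C).curv0 C a b x⟩

theorem Dm.wK_sym (D : Dm F Γ p ρ A) (x : M) (v w : V) :
    ⟪wK I F.e F.c ρ A x v, w⟫_ℝ = ⟪v, wK I F.e F.c ρ A x w⟫_ℝ := by
  have := FiniteDimensional.complete ℝ V
  refine sym_iff.2 ?_ v w
  rw [wK, star_smul, star_trivial, (D.kp x).star_C (fun a => skew_iff.1 (D.skρ a x))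
    fun a b => skew_iff.1 (skew_curv D.cc.sm D.skA a b x)]

theorem Gr.sec (G : Gr F p ρ A p₀ p₁) {u : M → V} (hu : SS I p₀ u) (x : M) : p x (u x) = u x := by
  have h : p x * p₀ x = p₀ x := by rw [← G.add, add_mul, G.id0, G.o10, add_zero]
  rw [← hu.2 x]
  exact congrArg (fun T : V →L[ℝ] V => T (u x)) h

theorem Gr.dir_sec (G : Gr F p ρ A p₀ p₁) {u : M → V} (hu : SS I p₀ u) (x : M) :
    p₁ x (dir I F.e ρ A u x) = dir I F.e ρ A u x := by
  rw [dir, map_sum]
  refine Finset.sum_congr rfl fun a _ => ?_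
  have h1 := nab_app' (e := F.e) (A := A) a (G.s0 x) (hu.1 x)
  simp only [hu.2, G.par0, zero_apply, zero_add] at h1
  nth_rewrite 2 [h1]
  exact (congrArg (fun T : V →L[ℝ] V => T (nab I F.e A a u x)) (G.sw a x)).symm

variable [BorelSpace M] [T2Space M] [CompactSpace M]

theorem Dm.hb (D : Dm F Γ p ρ A) (G : Gr F p ρ A p₀ p₁) : Hb I F.e F.P A p₀ (wK I F.e F.c ρ A) where
  sA := D.cc.sm
  proj := D.cc.proj
  skew := D.skA
  sp := G.s0
  symp := G.sym0
  idem := G.id0
  par := G.par0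
  sQ := sm_wK D.cc.sm D.cc.sρ
  symQ := D.wK_sym
  comm x := by rw [wK, smul_mul_assoc, mul_smul_comm, (G.gp D.cc x).cC]

theorem Dm.weitz (D : Dm F Γ p ρ A) (G : Gr F p ρ A p₀ p₁) (u v : M → V) (hu : SS I p₀ u)
    (hv : SS I p₀ v) : ∫ x, ⟪dir I F.e ρ A u x, dir I F.e ρ A v x⟫_ℝ ∂F.μ
      = ∫ x, (∑ a, ⟪nab I F.e A a u x, nab I F.e A a v x⟫_ℝ
        + ⟪wK I F.e F.c ρ A x (u x), v x⟫_ℝ) ∂F.μ := by
  rw [integral_weitz D.cc D.lc D.riem D.skA D.skρ hu.1 hv.1 (G.sec hu)
    (HasCompactSupport.of_compactSpace _), integral_add]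
  · exact integ (fun x => SA.sum _ fun a _ => SA.inner (sm_nab D.cc.sm a hu.1 x)
      (sm_nab D.cc.sm a hv.1 x))
      (HasCompactSupport.of_compactSpace _)
  · exact integ (fun x => SA.inner (SA.app (sm_wK D.cc.sm D.cc.sρ x) (hu.1 x)) (hv.1 x))
      (HasCompactSupport.of_compactSpace _)

theorem Dm.pr2 (D : Dm F Γ p ρ A) (G : Gr F p ρ A p₀ p₁)
    (ho : ∀ x, Ori (fun a b => F.P a b x) fun a b c d => o a b c d x) :
    Pr2 I F.e F.P F.μ A p₀ (wK I F.e F.c ρ A) A p₁ (wK I F.e F.c ρ A)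
      (dir I F.e ρ A) (dir I F.e ρ A) where
  h0 := D.hb G
  h1 := D.hb (G.symm D.cc)
  sm0 _ hu x := D.cc.dir_sm (frm F) (hu x)
  sm1 _ hu x := D.cc.dir_sm (frm F) (hu x)
  sec0 _ hu := G.dir_sec hu
  sec1 _ hu := (G.symm D.cc).dir_sec hu
  lin0 := dir_lin _ _ _
  lin1 := dir_lin _ _ _
  adj _ _ hu hw := integral_dir D.cc D.lc D.riem D.skA D.skρ hu.1 hw.1
    (HasCompactSupport.of_compactSpace _)
  w0 := D.weitz G
  w1 := D.weitz (G.symm D.cc)
  loc0 := dir_loc _ _ _
  loc1 := dir_loc _ _ _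
  rk x := ((D.kp x).gr (ho x) trL_comm (G.gp D.cc x) rfl rfl).1
  trQ x := by
    rw [wK, smul_mul_assoc, smul_mul_assoc, map_smul, map_smul,
      ((D.kp x).gr (ho x) trL_comm (G.gp D.cc x) rfl rfl).2.1]

theorem Dm.hd_eq (D : Dm F Γ p ρ A) (G : Gr F p ρ A p₀ p₁) {x : M}
    (ho : Ori (fun a b => F.P a b x) fun a b c d => o a b c d x) :
    hd I F.e F.c A p₀ (wK I F.e F.c ρ A) x - hd I F.e F.c A p₁ (wK I F.e F.c ρ A) x
      = dens (fun a b c d => o a b c d x)
          (-(omC (fun a b c d => o a b c d x) (fun a => ρ a x) * (p₀ x - p₁ x)))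
          (fun a b => curv I F.e F.c A a b x) fun a b k l => Rm I F.e F.c Γ a b k l x := by
  have h := ((D.kp x).gr ho trL_comm (G.gp D.cc x) rfl rfl).2.2
  simp only [hd, dens, cw, wK, smul_mul_assoc, mul_smul_comm, map_smul, smul_eq_mul]
  linear_combination (1 / (768 * Real.pi ^ 2)) * h

variable [I.Boundaryless]

/-- **the index theorem** for a graded Clifford module -/
theorem index_gr (D : Dm F Γ p ρ A) (G : Gr F p ρ A p₀ p₁)
    (ho : ∀ x, Ori (fun a b => F.P a b x) fun a b c d => o a b c d x) :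
    FiniteDimensional ℝ (K F ρ A p₀) ∧ FiniteDimensional ℝ (K F ρ A p₁) ∧
      (Module.finrank ℝ (K F ρ A p₀) : ℝ) - Module.finrank ℝ (K F ρ A p₁)
        = ∫ x, dens (fun a b c d => o a b c d x)
          (-(omC (fun a b c d => o a b c d x) (fun a => ρ a x) * (p₀ x - p₁ x)))
          (fun a b => curv I F.e F.c A a b x) (fun a b k l => Rm I F.e F.c Γ a b k l x) ∂F.μ := by
  obtain ⟨d, d', h1, h2, h3⟩ := index_all D.dim F D.vol (D.pr2 G ho)
  obtain ⟨h4, h5⟩ := h1.finrank (K := K F ρ A p₀) fun u => and_assoc.symm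
  obtain ⟨h6, h7⟩ := h2.finrank (K := K F ρ A p₁) fun u => and_assoc.symm
  refine ⟨h4, h6, ?_⟩
  rw [h5, h7, h3]
  simp only [D.hd_eq G (ho _)]

omit [BorelSpace M] [T2Space M] [CompactSpace M] [I.Boundaryless]

/-! ### the chirality -/

/-- the Clifford volume element as a field -/
def omF (o : ι → ι → ι → ι → M → ℝ) (ρ : ι → M → V →L[ℝ] V) (x : M) : V →L[ℝ] V :=
  omC (fun a b c d => o a b c d x) fun a => ρ a x

theorem sm_omF (so : ∀ a b c d, Sm I (o a b c d)) (sρ : ∀ a x, SA I (ρ a) x) : Sm I (omF o ρ) :=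
  fun x => SA.smul contMDiffAt_const (SA.sum _ fun a _ => SA.sum _ fun b _ => SA.sum _ fun c _ =>
    SA.sum _ fun d _ => SA.smul (so a b c d x) ((((sρ a x).mul (sρ b x)).mul (sρ c x)).mul (sρ d x)))

variable (ho : ∀ x, Ori (fun a b => F.P a b x) fun a b c d => o a b c d x)
include ho

theorem omF_sq (C : CC I F.e F.P Γ p ρ A) (x : M) : omF o ρ x * omF o ρ x = p x :=
  (ho x).om_om (C.cl x)

theorem omF_rho (C : CC I F.e F.P Γ p ρ A) (a : ι) (x : M) :
    omF o ρ x * ρ a x = -(ρ a x * omF o ρ x) := (ho x).om_rho (C.cl x) a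

theorem omF_par (C : CC I F.e F.P Γ p ρ A) (so : ∀ a b c d, Sm I (o a b c d)) (a : ι) (x : M) :
    nabE I F.e A a (omF o ρ) x = 0 :=
  C.par_of_anti (sm_omF so C.sρ x) (Eventually.of_forall fun y b => omF_rho ho C b y)
    (Eventually.of_forall (omF_sq ho C)) (Eventually.of_forall fun y => p_omC (C.cl y))
    (fun _ hT => omC_comm (anti2 hT)) a

theorem omF_sym (D : Dm F Γ p ρ A) (x : M) (v w : V) : ⟪omF o ρ x v, w⟫_ℝ = ⟪v, omF o ρ x w⟫_ℝ := by
  have := FiniteDimensional.complete ℝ V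
  exact sym_iff.2 ((ho x).star_om (D.cc.cl x) fun a => skew_iff.1 (D.skρ a x)) v w

theorem p_sym (D : Dm F Γ p ρ A) (x : M) (v w : V) : ⟪p x v, w⟫_ℝ = ⟪v, p x w⟫_ℝ := by
  rw [← omF_sq ho D.cc]
  exact (omF_sym ho D x _ _).trans (omF_sym ho D x _ _)

/-- the grading by the chirality -/
theorem gr_om (D : Dm F Γ p ρ A) (so : ∀ a b c d, Sm I (o a b c d)) :
    Gr F p ρ A (fun x => (1 / 2 : ℝ) • (p x - omF o ρ x)) fun x => (1 / 2 : ℝ) • (p x + omF o ρ x) := by
  have h1 := omF_sq ho D.cc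
  have h2 : ∀ x, p x * omF o ρ x = omF o ρ x := fun x => p_omC (D.cc.cl x)
  have h3 : ∀ x, omF o ρ x * p x = omF o ρ x := fun x => omC_p (D.cc.cl x)
  have h4 : ∀ x, p x * p x = p x := fun x => (ho x).p_p (D.cc.cl x)
  have h5 : ∀ x, SA I (fun x => p x - omF o ρ x) x := fun x =>
    (D.cc.sp x).sub (sm_omF so D.cc.sρ x)
  exact
    { s0 := fun x => SA.smul contMDiffAt_const (h5 x)
      sym0 := fun x v w => by
        simp only [smul_apply, sub_apply, real_inner_smul_left, real_inner_smul_right, inner_sub_left,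
          inner_sub_right, p_sym ho D x v w, omF_sym ho D x v w]
      sym1 := fun x v w => by
        simp only [smul_apply, add_apply, real_inner_smul_left, real_inner_smul_right, inner_add_left,
          inner_add_right, p_sym ho D x v w, omF_sym ho D x v w]
      id0 := fun x => by
        simp only [smul_mul_smul_comm, mul_sub, sub_mul, h1, h2, h3, h4]; module
      id1 := fun x => by
        simp only [smul_mul_smul_comm, mul_add, add_mul, h1, h2, h3, h4]; module
      add := fun x => by module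
      o01 := fun x => by
        simp only [smul_mul_smul_comm, mul_add, sub_mul, h1, h2, h3, h4]; module
      sw := fun a x => by
        rw [mul_smul_comm, smul_mul_assoc, mul_sub, add_mul, omF_rho ho D.cc, (D.cc.cl x).pl,
          (D.cc.cl x).pr, sub_eq_add_neg]
      par0 := fun a x => by
        rw [nabE_smul a (f := fun _ => (1 / 2 : ℝ)) contMDiffAt_const (h5 x),
          nabE_sub a (D.cc.sp x) (sm_omF so D.cc.sρ x), omF_par ho D.cc so,
          show nabE I F.e A a p x = 0 from D.cc.par a x, dv_const]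
        simp }

/-- **the index theorem** -/
theorem index_main [I.Boundaryless] [BorelSpace M] [T2Space M] [CompactSpace M] (D : Dm F Γ p ρ A)
    (so : ∀ a b c d, Sm I (o a b c d)) :
    FiniteDimensional ℝ (K F ρ A fun x => (1 / 2 : ℝ) • (p x - omF o ρ x)) ∧
    FiniteDimensional ℝ (K F ρ A fun x => (1 / 2 : ℝ) • (p x + omF o ρ x)) ∧
      (Module.finrank ℝ (K F ρ A fun x => (1 / 2 : ℝ) • (p x - omF o ρ x)) : ℝ)
        - Module.finrank ℝ (K F ρ A fun x => (1 / 2 : ℝ) • (p x + omF o ρ x))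
        = ∫ x, dens (fun a b c d => o a b c d x) (p x)
          (fun a b => curv I F.e F.c A a b x) (fun a b k l => Rm I F.e F.c Γ a b k l x) ∂F.μ := by
  have h := index_gr D (gr_om ho D so) ho
  have e : ∀ x, -(omC (fun a b c d => o a b c d x) (fun a => ρ a x)
      * ((1 / 2 : ℝ) • (p x - omF o ρ x) - (1 / 2 : ℝ) • (p x + omF o ρ x))) = p x := fun x => by
    rw [show (1 / 2 : ℝ) • (p x - omF o ρ x) - (1 / 2 : ℝ) • (p x + omF o ρ x) = -omF o ρ x by module,
      mul_neg, neg_neg]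
    exact omF_sq ho D.cc x
  simpa only [e] using h

omit ho

/-- restriction to a parallel projector `s ≤ p` which commutes with Clifford multiplication -/
theorem Dm.sub (D : Dm F Γ p ρ A) {s : M → V →L[ℝ] V} (hs : Sm I s)
    (hsym : ∀ x v w, ⟪s x v, w⟫_ℝ = ⟪v, s x w⟫_ℝ) (hi : ∀ x, s x * s x = s x)
    (hp : ∀ x, p x * s x = s x) (hρ : ∀ a x, s x * ρ a x = ρ a x * s x)
    (hpar : ∀ a x, nabE I F.e A a s x = 0) : Dm F Γ s (fun a x => ρ a x * s x) A where
  dim := D.dim
  vol := D.vol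
  riem := D.riem
  lc := D.lc
  cc :=
    { toCon := D.cc.toCon
      sp := hs
      sρ := fun a x => (D.cc.sρ a x).mul (hs x)
      cl := fun x =>
        { rel := fun a b => by
            have h : ∀ a b, ρ a x * s x * (ρ b x * s x) = ρ a x * ρ b x * s x := fun a b => by
              rw [mul_assoc, ← mul_assoc (s x), hρ, mul_assoc, hi, mul_assoc]
            rw [h, h, ← add_mul, (D.cc.cl x).rel, smul_mul_assoc, hp]
          pl := fun a => by rw [← mul_assoc, hρ, mul_assoc, hi]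
          pr := fun a => by rw [mul_assoc, hi]
          proj := fun a => by
            simp only [← smul_mul_assoc, ← Finset.sum_mul, (D.cc.cl x).proj] }
      par := hpar
      comp := fun a b x => by
        have h := nabE_mul (e := F.e) (A := A) a (D.cc.sρ b x) (hs x)
        rw [hpar, mul_zero, add_zero, show nabE I F.e A a (ρ b) x = _ from D.cc.comp a b x] at h
        simp only [Finset.sum_mul, smul_mul_assoc] at h
        exact h }
  skA := D.skA
  skρ a x v w := by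
    change ⟪ρ a x (s x v), w⟫_ℝ = -⟪v, (ρ a x * s x) w⟫_ℝ
    rw [D.skρ, hsym, ← hρ]
    rfl

end Crest.Agent.X212.Ind95
end
end

-- ▼ part X212/Idg99/Pair
section

/-! The index theorem for operators of Dirac type between two bundles. -/

set_option autoImplicit false
set_option linter.unusedSectionVars false
open scoped Manifold ContDiff Topology InnerProductSpace
open Finset Filter MeasureTheory Module

noncomputable section
namespace Crest.Agent.X212.Idg99
open An Wz78 Sob92 Ind95 Map77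
open Ell97 (inner_tr tr_inner kerS)
open Num57 (OK)

variable {E : Type} [NormedAddCommGroup E] [NormedSpace ℝ E] [FiniteDimensional ℝ E]
  [MeasurableSpace E] [BorelSpace E]
  {HM : Type} [TopologicalSpace HM] {I : ModelWithCorners ℝ E HM}
  {M : Type} [TopologicalSpace M] [ChartedSpace HM M] [IsManifold I ∞ M]
  [MeasurableSpace M] {ι : Type} [Fintype ι]
  {V W : Type} [NormedAddCommGroup V] [InnerProductSpace ℝ V] [FiniteDimensional ℝ V]
  [NormedAddCommGroup W] [InnerProductSpace ℝ W] [FiniteDimensional ℝ W]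
  [T2Space M] [BorelSpace M] [SecondCountableTopology M]

theorem ori_of {P : ι → ι → ℝ} {o : ι → ι → ι → ι → ℝ} (h : Vol P o) : Ori P o :=
  ⟨h.pr, h.tr, h.a1, h.a2, h.a3, h.po, h.nm⟩

/-- the difference of the dimensions of the smooth kernels -/
def ind (F : Fr I M ι) (A : Op M ι V W) : ℤ :=
  (finrank ℝ (kerS F A) : ℤ) - finrank ℝ (kerS F (A.adj F))

/-- the curvature tensor of the frame -/
abbrev RR (F : Fr I M ι) (x : M) : ι → ι → ι → ι → ℝ := fun a b k l => Rm I F.e F.c F.Gam a b k l x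

/-- the index density with the weight `T` -/
def dn (F : Fr I M ι) (o : ι → ι → ι → ι → M → ℝ) (T : M → V →L[ℝ] V) (A : ι → M → V →L[ℝ] V)
    (x : M) : ℝ :=
  Ind95.dens (fun a b c d => o a b c d x) (T x) (fun a b => curv I F.e F.c A a b x) (RR F x)

/-- an operator of Dirac type whose symbol is parallel for the connections `A₁`, `A₂` -/
structure Pa (F : Fr I M ι) (A : Op M ι V W) (A₁ : ι → M → V →L[ℝ] V) (A₂ : ι → M → W →L[ℝ] W) :
    Prop where
  good : ∃ C, A.Good F C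
  cl : A.Cliff F
  c1 : Con I F.P A₁
  c2 : Con I F.P A₂
  k1 : ∀ a x, Skew (A₁ a x)
  k2 : ∀ a x, Skew (A₂ a x)
  pp : ∀ a x, nabE I F.e A₁ a A.p x = 0
  pq : ∀ a x, nabE I F.e A₂ a A.q x = 0
  par : ParS I F.e F.Gam A.σ A₁ A₂

variable {F : Fr I M ι} {A : Op M ι V W} {A₁ : ι → M → V →L[ℝ] V} {A₂ : ι → M → W →L[ℝ] W}
  {o : ι → ι → ι → ι → M → ℝ}

theorem p_tr (h : Alg F.P A) (a : ι) (x : M) (w : W) :
    A.p x (Op.tr (A.σ a x) w) = Op.tr (A.σ a x) w := by
  simpa [Op.adj] using (h.adj F).qσ a x w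

theorem tr_q (h : Alg F.P A) (a : ι) (x : M) (w : W) :
    Op.tr (A.σ a x) (A.q x w) = Op.tr (A.σ a x) w := by
  simpa [Op.adj] using (h.adj F).σp a x w

theorem cl_clf (h : Alg F.P A) (hc : A.Cliff F) (x : M) :
    Cl (fun a b => F.P a b x) (ps A.p A.q x) fun a => clf (A.σ a x) where
  rel a b := cext (fun u => ext_inner_left ℝ fun v => by
      have := hc.1 a b x v (f2 V W u)
      simp only [add_apply, mul_apply_eq_comp, map_add, f2_clf, s2_clf, smul_apply, map_smul,
        f2_ps, inner_add_right, inner_neg_right, inner_tr, real_inner_smul_right, ← h.p.symm]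
      linarith)
    fun u => ext_inner_left ℝ fun w => by
      have := hc.2 a b x w (s2 V W u)
      simp only [Op.adj, neg_apply, inner_neg_neg, tr_inner] at this
      simp only [add_apply, mul_apply_eq_comp, map_add, f2_clf, s2_clf, smul_apply, map_smul,
        s2_ps, inner_add_right, inner_neg_right, map_neg, real_inner_smul_right, ← h.q.symm]
      linarith
  pl a := cext (by simp [p_tr h]) (by simp [h.qσ])
  pr a := cext (by simp [tr_q h]) (by simp [h.σp])
  proj a := by simp only [← map_smul, ← map_sum, h.Pσ]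

namespace Pa
variable (D : Pa F A A₁ A₂)
include D

theorem alg : Alg F.P A := Alg.of_good D.good.choose_spec
theorem sp : An.Sm I A.p := D.good.choose_spec.p.cb.1
theorem sq : An.Sm I A.q := D.good.choose_spec.q.cb.1

theorem dm [I.Boundaryless] (h : OK F o) :
    Ind95.Dm F F.Gam (ps A.p A.q) (fun a x => clf (A.σ a x)) (sA A₁ A₂) where
  dim := h.h4
  vol := h.isv
  riem := riem_of_vol h.isv
  lc := lc_gam F
  cc :=
    { toCon := con_sA D.c1 D.c2
      sp := fun x => sa_sm2 (D.sp x) (D.sq x)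
      sρ := fun a x => (D.par.sm a x).clm _
      cl := cl_clf D.alg D.cl
      par := fun a x => par_sA (D.sp x) (D.sq x) (D.pp a x) (D.pq a x)
      comp := D.par.clf D.k1 D.k2 }
  skA a x := skew_sm2 (D.k1 a x) (D.k2 a x)
  skρ _ _ := skew_clf _

theorem gr : Gr F (ps A.p A.q) (fun a x => clf (A.σ a x)) (sA A₁ A₂) (ps A.p 0) (ps 0 A.q) where
  s0 x := sa_sm2 (D.sp x) contMDiffAt_const
  sym0 x v w := by simp only [inner2, f2_ps, s2_ps, D.alg.p.symm]; simp
  sym1 x v w := by simp only [inner2, f2_ps, s2_ps, D.alg.q.symm]; simp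
  id0 x := cext (by simp [D.alg.p.idem]) (by simp)
  id1 x := cext (by simp) (by simp [D.alg.q.idem])
  add x := cext (by simp) (by simp)
  o01 x := cext (by simp) (by simp)
  sw a x := cext (by simp) (by simp [D.alg.σp, D.alg.qσ])
  par0 a x := par_sA (T := fun _ => 0) (D.sp x) contMDiffAt_const (D.pp a x) (by simp [nabE])

omit D in
variable (A A₁) in
/-- the operator `∑ σ_a ∇_a` -/
def op0 : Op M ι V W := ⟨A.p, A.q, A.σ, fun x => ∑ a, A.σ a x ∘L A₁ a x⟩

theorem good0 [CompactSpace M] {C : ℕ → ℝ} (hF : F.Tame C) : ∃ C', (op0 A A₁).Good F C' :=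
  let ⟨C', _, h⟩ := good_of (A := op0 A A₁) hF (Cb_of_compact D.sp) (Cb_of_compact D.sq)
    (fun a => Cb_of_compact (D.par.sm a))
    (Cb_of_compact fun x => SA.sum _ fun a _ => sa_comp (D.par.sm a x) (D.c1.sm a x))
    ⟨D.alg.p, D.alg.q, D.alg.σp, D.alg.qσ, fun x v => by simp [op0, D.alg.qσ], D.alg.Pσ⟩
  ⟨C', h⟩

omit D in
theorem dir_i1 {u : M → V} (hu : An.Sm I u) (x : M) :
    dir I F.e (fun a x => clf (A.σ a x)) (sA A₁ A₂) (fun y => i1 V W (u y)) x
      = i2 V W ((op0 A A₁).app F u x) := by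
  refine ext2 ?_ ?_ <;>
    simp [dir, nab, dv_clm _ (SA.md (hu x)), sA, op0, Op.app, Pre.op, Pre.D_def, sum_add_distrib]

theorem dir_i2 [I.Boundaryless] (h : F.IsVol) {w : M → W} (hw : An.Sm I w) (x : M) :
    dir I F.e (fun a x => clf (A.σ a x)) (sA A₁ A₂) (fun y => i2 V W (w y)) x
      = i1 V W (((op0 A A₁).adj F).app F w x) := by
  refine ext2 (ext_inner_left ℝ fun v => ?_) (by simp [dir, nab, dv_clm _ (SA.md (hw x)), sA])
  have h1 := (lc_gam F).div_sum (frm F) (dv_gam h x) (T := fun k => A.σ k x)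
    fun k => D.alg.Pσ k x
  simp only [← D.par.par] at h1
  have h2 := congrArg (fun T : V →L[ℝ] W => ⟪T (A.p x v), w x⟫_ℝ) h1
  have h3 : ∀ a, dv I (F.e a) (fun y => Op.tr (A.σ a y)) x = Op.tr (dv I (F.e a) (A.σ a) x) :=
    fun a => dv_clm (Ell97.trL V W) (D.par.sm a x).md
  simp only [_root_.sum_apply, add_apply, sub_apply, neg_apply, smul_apply, sum_inner,
    ContinuousLinearMap.comp_apply, inner_add_left, inner_sub_left, inner_neg_left, D.alg.σp,
    real_inner_smul_left, D.k2 _ x _ (w x), sum_add_distrib, sum_sub_distrib,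
    sum_neg_distrib] at h2
  simp only [dir, nab, dv_clm _ (SA.md (hw x)), sA, op0, Op.app, Op.adj, Pre.op, map_sum, map_add,
    f2_clf, s2_i2, s2_sm2, f2_i1, h3, inner_add_right, inner_sum, inner_neg_right, inner_tr,
    ContinuousLinearMap.comp_apply, ← D.alg.p.symm, _root_.sum_apply, add_apply, sub_apply,
    neg_apply, smul_apply, inner_sub_right, real_inner_smul_right, sum_inner, D.alg.σp,
    sum_add_distrib, sum_neg_distrib, Pre.D_def]
  linarith

omit D in
variable (F A A₁ A₂) in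
/-- the kernel -/
def ker0 [CompactSpace M] :
    kerS F (op0 A A₁) ≃ₗ[ℝ] K F (fun a x => clf (A.σ a x)) (sA A₁ A₂) (ps A.p 0) where
  toFun u := ⟨fun x => i1 V W (u.1.1 x), fun x => SA.clm _ (u.1.2.1 x),
    fun x => ext2 ((f2_ps _ _).trans (u.1.2.2.2 x)) (by simp), _root_.funext fun x => by
      rw [dir_i1 u.1.2.1, show (op0 A A₁).app F u.1.1 = 0 from u.2]; simp⟩
  invFun u := ⟨⟨fun x => f2 V W (u.1 x), fun x => SA.clm _ (u.2.1 x),
    HasCompactSupport.of_compactSpace _, fun x =>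
      (f2_ps _ _).symm.trans (congrArg (f2 V W) (u.2.2.1 x))⟩, _root_.funext fun x => by
    have h : u.1 = fun y => i1 V W (f2 V W (u.1 y)) := _root_.funext fun y =>
      ext2 rfl (by simpa using (congrArg (s2 V W) (u.2.2.1 y)).symm)
    have h2 := congrFun u.2.2.2 x
    rw [h, dir_i1 fun x => SA.clm _ (u.2.1 x)] at h2
    exact congrArg (s2 V W) h2⟩
  map_add' u v := Subtype.ext (_root_.funext fun x => map_add _ _ _)
  map_smul' r u := Subtype.ext (_root_.funext fun x => map_smul _ _ _)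
  left_inv u := rfl
  right_inv u := Subtype.ext (_root_.funext fun y =>
    ext2 rfl (by simpa using congrArg (s2 V W) (u.2.2.1 y)))

omit D in
/-- the cokernel -/
def ker1 [CompactSpace M] [I.Boundaryless] (D : Pa F A A₁ A₂) (h : F.IsVol) :
    kerS F ((op0 A A₁).adj F) ≃ₗ[ℝ] K F (fun a x => clf (A.σ a x)) (sA A₁ A₂) (ps 0 A.q) where
  toFun u := ⟨fun x => i2 V W (u.1.1 x), fun x => SA.clm _ (u.1.2.1 x),
    fun x => ext2 (by simp) ((s2_ps _ _).trans (u.1.2.2.2 x)), _root_.funext fun x => by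
      rw [D.dir_i2 h u.1.2.1, show ((op0 A A₁).adj F).app F u.1.1 = 0 from u.2]; simp⟩
  invFun u := ⟨⟨fun x => s2 V W (u.1 x), fun x => SA.clm _ (u.2.1 x),
    HasCompactSupport.of_compactSpace _, fun x =>
      (s2_ps _ _).symm.trans (congrArg (s2 V W) (u.2.2.1 x))⟩, _root_.funext fun x => by
    have h1 : u.1 = fun y => i2 V W (s2 V W (u.1 y)) := _root_.funext fun y =>
      ext2 (by simpa using (congrArg (f2 V W) (u.2.2.1 y)).symm) rfl
    have h2 := congrFun u.2.2.2 x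
    rw [h1, D.dir_i2 h fun x => SA.clm _ (u.2.1 x)] at h2
    exact congrArg (f2 V W) h2⟩
  map_add' u v := Subtype.ext (_root_.funext fun x => map_add _ _ _)
  map_smul' r u := Subtype.ext (_root_.funext fun x => map_smul _ _ _)
  left_inv u := rfl
  right_inv u := Subtype.ext (_root_.funext fun y =>
    ext2 (by simpa using congrArg (f2 V W) (u.2.2.1 y)) rfl)

end Pa

variable [CompactSpace M] [I.Boundaryless]

theorem fr_ind {C C' : ℕ → ℝ} (hF : F.Tame C) (hA : A.Good F C') (hc : A.Cliff F) (k : ℕ) :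
    Fred93.Fr (A.H F k) (ind F A) := Ell97.fr hF hA hc k

/-- the index depends on the symbol only -/
theorem ind_congr {C C' C'' : ℕ → ℝ} (hF : F.Tame C) (hA : A.Good F C') (hc : A.Cliff F)
    {B : M → V →L[ℝ] W} (hB : (⟨A.p, A.q, A.σ, B⟩ : Op M ι V W).Good F C'') :
    ind F ⟨A.p, A.q, A.σ, B⟩ = ind F A :=
  (fr_ind hF hB hc 0).unique (Ell97.fr_congr hA hB (fr_ind hF hA hc 0))

/-- the chirality on the second bundle -/
theorem om_sm2 {P : ι → ι → ℝ} {o : ι → ι → ι → ι → ℝ} (ho : Ori P o) {p T₀ : V →L[ℝ] V}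
    {q T₁ : W →L[ℝ] W} {σ : ι → V →L[ℝ] W} (C : Cl P (sm2 p q) fun a => clf (σ a))
    (h0 : ∀ v, omC o (fun a => clf (σ a)) (i1 V W (p v)) = -i1 V W (T₀ v))
    (hσ : ∀ a v, σ a (T₀ v) = T₁ (σ a v)) (hq : ∀ w, T₁ (q w) = T₁ w) :
    -(omC o (fun a => clf (σ a)) * (sm2 p 0 - sm2 0 q)) = sm2 T₀ T₁ := by
  have hp : ∀ a w, p (Op.tr (σ a) w) = Op.tr (σ a) w := fun a w => by
    simpa using congrArg (fun T => f2 V W (T (i2 V W w))) (C.pl a)
  have h4 : ∀ w, ∑ a, σ a (Op.tr (σ a) w) = (4 : ℝ) • q w := fun w => by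
    have h : ∀ a, σ a (Op.tr (σ a) w) = P a a • q w := fun a => by
      have := congrArg (fun T => s2 V W (T (i2 V W w))) (C.rel a a)
      simp only [add_apply, mul_apply_eq_comp, map_add, s2_clf, f2_clf, s2_i2, map_neg, smul_apply,
        map_smul, s2_sm2] at this
      linear_combination (norm := module) (-1 / 2 : ℝ) • this
    simp only [h, ← sum_smul, ho.rk]
  have h1 : ∀ w, omC o (fun a => clf (σ a)) (i2 V W (q w)) = i2 V W (T₁ w) := fun w => by
    have h2 : ∀ a, omC o (fun a => clf (σ a)) (i2 V W (σ a (Op.tr (σ a) w)))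
        = i2 V W (T₁ (σ a (Op.tr (σ a) w))) := fun a => by
      have := DFunLike.congr_fun (ho.om_rho C a) (i1 V W (p (Op.tr (σ a) w)))
      rw [neg_apply, mul_apply_eq_comp, mul_apply_eq_comp, h0, clf_i1, map_neg, clf_i1, hσ, hp,
        neg_neg] at this
      exact this
    have h3 := sum_congr (rfl : univ = univ) fun a _ => h2 a
    simp only [← map_sum, h4, map_smul, hq] at h3
    exact smul_right_injective _ four_ne_zero h3
  ext1 u
  have e : (sm2 p (0 : W →L[ℝ] W) - sm2 (0 : V →L[ℝ] V) q) u = i1 V W (p (f2 V W u)) - i2 V W (q (s2 V W u)) :=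
    ext2 (by simp) (by simp)
  rw [neg_apply, mul_apply_eq_comp, e, map_sub, h0, h1]
  exact ext2 (by simp) (by simp)

/-- **The index theorem for a pair of bundles.** -/
theorem Pa.index (D : Pa F A A₁ A₂) (h : OK F o) {T₀ : M → V →L[ℝ] V} {T₁ : M → W →L[ℝ] W}
    (h0 : ∀ x v, omC (fun a b c d => o a b c d x) (fun a => clf (A.σ a x)) (i1 V W (A.p x v))
      = -i1 V W (T₀ x v))
    (hσ : ∀ x a v, A.σ a x (T₀ x v) = T₁ x (A.σ a x v)) (hq : ∀ x w, T₁ x (A.q x w) = T₁ x w) :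
    (ind F A : ℝ) = ∫ x, (dn F o T₀ A₁ x + dn F o T₁ A₂ x) ∂F.μ := by
  obtain ⟨C, hC⟩ := Cht98.exists_tame F h.h4.le
  obtain ⟨C', hA⟩ := D.good
  obtain ⟨C'', h1⟩ := D.good0 hC
  have h2 := (index_gr (D.dm h) D.gr fun x => ori_of (h.vo x)).2.2
  rw [← (Pa.ker0 F A A₁ A₂).finrank_eq, ← (D.ker1 h.isv).finrank_eq] at h2
  rw [← ind_congr hC hA D.cl h1, ind, Int.cast_sub, Int.cast_natCast, Int.cast_natCast]
  refine h2.trans (congrArg _ (_root_.funext fun x => ?_))
  simp only [curv_sA (fun a => D.c1.sm a x) fun a => D.c2.sm a x]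
  rw [dn, dn, ← dens_sm2]
  congr 1
  exact om_sm2 (ori_of (h.vo x)) (cl_clf D.alg D.cl x) (h0 x) (hσ x) (hq x)

end Crest.Agent.X212.Idg99
end
end

-- ▼ part X212/Idg99/Asd

/-! The index of `d* + d⁺` with coefficients and of the linearised monopole operator. -/

set_option autoImplicit false
set_option linter.unusedSectionVars false
open scoped Manifold ContDiff Topology InnerProductSpace Kronecker Matrix
open Finset Filter MeasureTheory Module

noncomputable section
namespace Crest.Agent.X212.Idg99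
open An Wz78 Sob92 Ind95 Map77
open Ell97 (inner_tr tr_inner kerS)
open Num57 (OK hop)

section pt
variable {ι : Type} [Fintype ι] {P : ι → ι → ℝ} {o : ι → ι → ι → ι → ℝ}
  {X V W : Type} [NormedAddCommGroup X] [InnerProductSpace ℝ X]
  [NormedAddCommGroup V] [InnerProductSpace ℝ V] [FiniteDimensional ℝ V]
  [NormedAddCommGroup W] [InnerProductSpace ℝ W] [FiniteDimensional ℝ W]

theorem om_gen (ho : Ori P o) {p : V →L[ℝ] V} {ρ : ι → V →L[ℝ] V} (C : Cl P p ρ) {u : V}
    (h : ∀ a, ∑ b, ∑ c, ∑ d, o a b c d • ρ b (ρ c (ρ d u)) = (6 : ℝ) • ρ a u) (k : ι) :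
    omC o ρ (ρ k u) = ρ k u := by
  have h1 : ∀ a, ρ a (ρ a u) = -P a a • p u := fun a => by
    have := DFunLike.congr_fun (C.rel a a) u
    simp only [add_apply, mul_apply_eq_comp, smul_apply] at this
    linear_combination (norm := module) (1 / 2 : ℝ) • this
  have h2 : omC o ρ u = -p u := by
    have h4 : ∀ a, ∑ b, ∑ c, ∑ d, o a b c d • ρ a (ρ b (ρ c (ρ d u))) = (-6 * P a a) • p u :=
      fun a => by
        simp only [← map_smul (ρ a), ← map_sum (ρ a), h]
        simp only [map_smul, h1, smul_smul, neg_mul_comm]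
    simp only [omC, smul_apply, _root_.sum_apply, mul_apply_eq_comp, h4, ← sum_smul, ← mul_sum,
      ho.rk]
    module
  have h3 := DFunLike.congr_fun (ho.om_rho C k) u
  rw [neg_apply, mul_apply_eq_comp, mul_apply_eq_comp, h2, map_neg, neg_neg] at h3
  exact h3.trans (DFunLike.congr_fun (C.pr k) u)

theorem cubic (h : Vol P o) (a m : ι) : ∑ b, ∑ c, ∑ d, o a b c d *
    (P m b * P c d + (P b c * P m d - P m c * P b d + o b m c d)) = -6 * P m a := by
  have z3 : ∀ a b c, o a b c c = 0 := fun a b c => by have := h.a3 a b c c; linarith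
  have z2 : ∀ a b c, o a b b c = 0 := fun a b c => by have := h.a2 a b b c; linarith
  have e1 : ∀ b c, ∑ d, o a b c d * (P m b * P c d) = 0 := fun b c => by
    rw [← mul_zero (P m b), ← z3 a b c, ← h.po4, mul_sum]
    exact sum_congr rfl fun d _ => by ring
  have e2 : ∀ b, ∑ c, ∑ d, o a b c d * (P b c * P m d) = 0 := fun b => by
    rw [sum_comm]
    refine sum_eq_zero fun d _ => ?_
    rw [← mul_zero (P m d), ← z2 a b d, ← h.po3, mul_sum]
    exact sum_congr rfl fun d _ => by ring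
  have e3 : ∀ b c, ∑ d, o a b c d * (P m c * P b d) = 0 := fun b c => by
    rw [← mul_zero (P m c), ← neg_zero, ← z2 a b c, ← h.a3, ← h.po4, mul_sum]
    exact sum_congr rfl fun d _ => by ring
  simp only [mul_add, mul_sub, sum_add_distrib, sum_sub_distrib, e1, e2, e3, h.i2, ← mul_sum,
    h.pr.idem, h.tr, sum_const_zero]
  rw [h.pr.symm m]; ring

/-- the volume element of a symbol -/
def omP (o : ι → ι → ι → ι → ℝ) (σ : ι → V →L[ℝ] W) : CL (P2 V W) (P2 V W) :=
  omC o fun a => clf (σ a)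

theorem omP_apply (σ : ι → V →L[ℝ] W) (u : P2 V W) : omP o σ u = (1 / 24 : ℝ) • ∑ a, ∑ b, ∑ c, ∑ d,
    o a b c d • clf (σ a) (clf (σ b) (clf (σ c) (clf (σ d) u))) := by
  simp only [omP, omC, smul_apply, _root_.sum_apply, mul_apply_eq_comp]

/-- the chirality of one-forms -/
theorem om_one (h : Vol P o) {p : P2 V W →L[ℝ] P2 V W} {σ : ι → V →L[ℝ] W}
    (C : Cl P p fun a => clf (σ a)) {g : X →L[ℝ] X} (hg : ∀ ξ, g (g ξ) = g ξ)
    (j : Fm ι X →L[ℝ] V) (i : X →L[ℝ] W)
    (h1 : ∀ d ξ, Op.tr (σ d) (i ξ) = j (ea X P d (g ξ)))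
    (h2 : ∀ b c α, idx P g α = α → Op.tr (σ b) (σ c (j α)) = j (ea X P b (α c)
      + WithLp.toLp 2 fun m => (2 : ℝ) • idx (sdm P o) g (wd2 X P c α) (b, m)))
    (α : Fm ι X) :
    omP o σ (i1 V W (j (idx P g α))) = i1 V W (j (idx P g α)) := by
  have e : idx P g α = ∑ k, ea X P k (g (α k)) := fm_ext fun m => by
    simp [Map77.idx_apply, ea_apply]
  have k : ∀ k ξ, omC o (fun a => clf (σ a)) (clf (σ k) (i2 V W (i ξ)))
      = clf (σ k) (i2 V W (i ξ)) := fun k ξ => by
    refine om_gen (ori_of h) C (fun a => ?_) k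
    have f1 : ∀ d m, ∑ k, P m k • ea X P d (g ξ) k = ea X P d (g ξ) m := fun d m => by
      simp only [ea_apply, smul_smul, ← sum_smul, h.pr.idem]
    have f2 : ∀ d m, g (ea X P d (g ξ) m) = ea X P d (g ξ) m := fun d m => by
      simp only [ea_apply, map_smul, hg]
    have f3 : ∀ d, idx P g (ea X P d (g ξ)) = ea X P d (g ξ) := fun d => fm_ext fun m => by
      simp only [Map77.idx_apply, f2, f1]
    simp only [clf_i2, clf_i1, map_neg, neg_neg, h1, h2 _ _ _ (f3 _)]
    simp only [← map_smul j, ← map_sum j, ← map_neg j, ← map_smul (i1 V W), ← map_sum (i1 V W),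
      ← map_neg (i1 V W)]
    congr 2
    refine fm_ext fun m => ?_
    simp only [WithLp.ofLp_sum, Finset.sum_apply, PiLp.smul_apply, PiLp.add_apply,
      PiLp.neg_apply, h.sd_wd2 (f2 _) (f1 _), ea_apply, smul_smul, ← sum_smul, ← sub_smul,
      ← add_smul, ← neg_smul]
    congr 1
    rw [mul_neg, ← neg_mul, ← cubic h]
    refine sum_congr rfl fun b _ => sum_congr rfl fun c _ => sum_congr rfl fun d _ => ?_
    rw [← h.po4 b m c d]
    simp only [h.pr.symm d, mul_comm (o b m c _)]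
  simp only [clf_i2, h1, map_neg, neg_inj] at k
  simp only [omP, e, map_sum, k]

end pt

section gen
variable {E H : Type*} [NormedAddCommGroup E] [NormedSpace ℝ E] [TopologicalSpace H]
  {I : ModelWithCorners ℝ E H} {M : Type*} [TopologicalSpace M] [ChartedSpace H M]
  {ι : Type} [Fintype ι] [DecidableEq ι] [IsManifold I 1 M]
  {X Y : Type} [NormedAddCommGroup X] [InnerProductSpace ℝ X]
  [NormedAddCommGroup Y] [InnerProductSpace ℝ Y]
  {e : ι → (x : M) → TangentSpace I x} {P : ι → ι → M → ℝ} {c Γ : ι → ι → ι → M → ℝ}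

theorem ParS.congr {σ τ : ι → M → X →L[ℝ] Y} {A : ι → M → X →L[ℝ] X} {B : ι → M → Y →L[ℝ] Y}
    (h : ParS I e Γ σ A B) (e' : ∀ a x v, τ a x v = σ a x v) : ParS I e Γ τ A B := by
  rwa [show τ = σ from _root_.funext fun a => _root_.funext fun x => ContinuousLinearMap.ext (e' a x)]

theorem tA_kr (Ω Θ : ι → M → Matrix ι ι ℝ) (B : ι → M → X →L[ℝ] X) (a : ι) (y : M)
    (v : Fm (ι × ι) X) (s : ι × ι) : tA (kr Ω Θ) B a y v s
      = ∑ t, Ω a y s.1 t • v (t, s.2) + ∑ t, Θ a y s.2 t • v (s.1, t) + B a y (v s) := by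
  simp [tA_apply, kr, Matrix.one_apply, Fintype.sum_prod_type, add_smul, sum_add_distrib, ite_smul]

variable (L : LC I e P c Γ) (F : Frm I e P c) (B : ι → M → X →L[ℝ] X)
include L F

/-- contraction with the frame is parallel -/
theorem par_pj : ParS I e Γ (fun a x => ∑ b, P a b x • pj X b) (tA (Om P Γ) B) B := by
  have s := fun a b x => (F.sP a b x).smul (contMDiffAt_const (c := pj X b))
  refine ⟨fun a x => SA.sum _ fun b _ => s a b x, fun a b x => ?_⟩
  rw [dv_sum' _ (s b · x)]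
  ext1 α
  have h1 : ∑ k, P b k x • ∑ t, Om P Γ a x k t • α t = ∑ t, Γ a t b x • α t := by
    simp only [smul_sum, smul_smul]
    rw [sum_comm]
    simp only [← sum_smul]
    exact sum_congr rfl fun t _ => congrArg (· • _) (congrFun (congrFun (Pm_Om L F a x) b) t)
  have h2 : ∑ k, Γ a b k x • ∑ t, P k t x • α t = ∑ t, Γ a b t x • α t := by
    simp only [smul_sum, smul_smul]
    rw [sum_comm]
    simp only [← sum_smul, L.proj]
  simp only [dv_smul (F.sP b _ x).md mdifferentiableAt_const, dv_const, L.met, add_apply, sub_apply,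
    _root_.sum_apply, smul_apply, ContinuousLinearMap.comp_apply, pj_apply, tA_apply, map_sum,
    map_smul, smul_add, add_smul, sum_add_distrib, h1, h2, Pi.zero_apply, smul_zero,
    sum_const_zero, zero_apply]
  abel

/-- the wedge product with the frame is parallel -/
theorem par_wd : ParS I e Γ (fun a x => wd2 X (fun a b => P a b x) a) (tA (Om P Γ) B)
    (tA (Om2 P Γ) B) := by
  have s := fun (a : ι) (t : ι × ι) x => ((F.sP t.1 a x).smul (contMDiffAt_const (c := pj X t.2))).sub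
    ((F.sP t.2 a x).smul (contMDiffAt_const (c := pj X t.1)))
  have s' := fun (a : ι) (t : ι × ι) x => sa_comp (contMDiffAt_const (c := ij X t)) (s a t x)
  simp only [wd2, tp_eq]
  refine ⟨fun a x => SA.sum _ fun t _ => s' a t x, fun a b x => ?_⟩
  rw [dv_sum' _ (s' b · x)]
  simp only [fun t => dv_compL (v := e a) (contMDiffAt_const (c := ij X t)) (s b t x), dv_const,
    Pi.zero_apply, ContinuousLinearMap.zero_comp, zero_add, ← tp_eq]
  ext1 α
  refine fm_ext fun t => ?_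
  have h1 : ∀ m, ∑ k, Om P Γ a x m k * P k b x = -Γ a m b x :=
    fun m => congrFun (congrFun (Om_Pm L F a x) m) b
  have h2 : ∀ m, ∑ k, Γ a b k x * P m k x = Γ a b m x := fun m => by
    simp only [(F.pr x).symm m, L.proj]
  simp only [dv_sub' ((F.sP _ b x).smul contMDiffAt_const) ((F.sP _ b x).smul contMDiffAt_const),
    dv_smul (F.sP _ b x).md mdifferentiableAt_const, dv_const, L.met, add_apply, sub_apply,
    _root_.sum_apply, smul_apply, ContinuousLinearMap.comp_apply, pj_apply, Om2, tA_kr, map_sub,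
    map_smul, Pi.zero_apply, smul_zero, add_zero, PiLp.add_apply, PiLp.sub_apply, tp_apply,
    WithLp.ofLp_sum, Finset.sum_apply, PiLp.smul_apply]
  simp only [tA_apply, add_smul, smul_sub, smul_smul, sum_sub_distrib,
    ← sum_smul, h1, h2, smul_add, smul_sum, mul_comm (P _ b x), neg_smul]
  abel

end gen

variable {E : Type} [NormedAddCommGroup E] [NormedSpace ℝ E] [FiniteDimensional ℝ E]
  [MeasurableSpace E] [BorelSpace E]
  {HM : Type} [TopologicalSpace HM] {I : ModelWithCorners ℝ E HM}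
  {M : Type} [TopologicalSpace M] [ChartedSpace HM M] [IsManifold I ∞ M]
  [MeasurableSpace M] {ι : Type} [Fintype ι]
  {X : Type} [NormedAddCommGroup X] [InnerProductSpace ℝ X] [FiniteDimensional ℝ X]

section
variable (F : Fr I M ι) (o : ι → ι → ι → ι → M → ℝ)

/-- the signature density `p₁ / 3` -/
def sgd (x : M) : ℝ := -cwT (fun a b c d => o a b c d x) (RR F x) / (96 * Real.pi ^ 2)

open Classical in
/-- the Euler density -/
def eud (x : M) : ℝ := -cwS I F.e F.P F.c F.Gam (fun a b c d => o a b c d x) x / (128 * Real.pi ^ 2)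

/-- the Chern-Weil density of the connection `A` with the weight `T` -/
def cwd (T : M → X →L[ℝ] X) (A : ι → M → X →L[ℝ] X) (x : M) : ℝ :=
  cw (fun a b c d => o a b c d x) (T x) fun a b => curv I F.e F.c A a b x

theorem dn_eq [T2Space M] [BorelSpace M] [SecondCountableTopology M] (T : M → X →L[ℝ] X)
    (A : ι → M → X →L[ℝ] X) (x : M) :
    dn F o T A x = -cwd F o T A x / (128 * Real.pi ^ 2) - trL (T x) / 8 * sgd F o x := by
  rw [dn, Ind95.dens, cwd, sgd]; field_simp; ring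

end

variable {F : Fr I M ι} {o : ι → ι → ι → ι → M → ℝ}

/-- a parallel subbundle -/
structure Sub (F : Fr I M ι) (g : M → X →L[ℝ] X) (B : ι → M → X →L[ℝ] X) : Prop where
  con : Con I F.P B
  sk : ∀ a x, Skew (B a x)
  sm : An.Sm I g
  par : ∀ a x, nabE I F.e B a g x = 0

section
variable [DecidableEq ι] {g : M → X →L[ℝ] X} {B : ι → M → X →L[ℝ] X}

theorem Sub.one (S : Sub F g B) :
    Sub F (fun x => idx (fun a b => F.P a b x) (g x)) (tA (Om F.P F.Gam) B) :=
  ⟨con_tA (sm_Om (lc_gam F) (frm F)) (Om_proj (lc_gam F) (frm F) (sep F)) S.con,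
    fun a x => skew_tA (Om_skew (lc_gam F) (frm F) a x) (S.sk a x),
    fun x => (sm_Pm (frm F) x).ix (S.sm x), fun a x =>
      (nabE_tA (sm_Pm (frm F) x) (S.sm x) a).trans (by rw [nm_Pm (lc_gam F) (frm F), S.par]; simp)⟩

theorem Sub.two (S : Sub F g B) (h : OK F o) :
    Sub F (fun x => idx (sdm (fun a b => F.P a b x) fun a b c d => o a b c d x) (g x))
      (tA (Om2 F.P F.Gam) B) :=
  ⟨con_tA (sm_Om2 (lc_gam F) (frm F)) (Om2_proj (lc_gam F) (frm F) (sep F)) S.con,
    fun a x => skew_tA (Om2_skew (lc_gam F) (frm F) a x) (S.sk a x),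
    fun x => (sm_sd (frm F) h.sm x).ix (S.sm x), fun a x =>
      (nabE_tA (sm_sd (frm F) h.sm x) (S.sm x) a).trans
        (by rw [nm_sd (lc_gam F) (frm F) h.sm h.vo, S.par]; simp)⟩

theorem Sub.ps {Y : Type} [NormedAddCommGroup Y] [InnerProductSpace ℝ Y] [FiniteDimensional ℝ Y]
    {q : M → Y →L[ℝ] Y} {A : ι → M → Y →L[ℝ] Y} (S : Sub F g B) (T : Sub F q A) :
    Sub F (ps g q) (sA B A) :=
  ⟨con_sA S.con T.con, fun a x => skew_sm2 (S.sk a x) (T.sk a x), fun x => sa_sm2 (S.sm x) (T.sm x),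
    fun a x => par_sA (S.sm x) (T.sm x) (S.par a x) (T.par a x)⟩

variable [T2Space M] [BorelSpace M] [SecondCountableTopology M]

theorem dn_sm2 {Y : Type} [NormedAddCommGroup Y] [InnerProductSpace ℝ Y] [FiniteDimensional ℝ Y]
    {A : ι → M → Y →L[ℝ] Y} (hB : Con I F.P B) (hA : Con I F.P A) (S : M → X →L[ℝ] X)
    (T : M → Y →L[ℝ] Y) (x : M) :
    dn F o (fun x => sm2 (S x) (T x)) (sA B A) x = dn F o S B x + dn F o T A x := by
  simp only [dn, curv_sA (fun a => hB.sm a x) fun a => hA.sm a x, dens_sm2]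

theorem dn_neg (S : M → X →L[ℝ] X) (x : M) : dn F o (fun x => -S x) B x = -dn F o S B x :=
  dens_neg _ _ _ _

theorem dn_asd (hB : Con I F.P B) (h : OK F o) (x : M) :
    dn F o (fun x => idx (fun a b => F.P a b x) (g x)) (tA (Om F.P F.Gam) B) x + dn F o g B x
      + dn F o (fun x => idx (sdm (fun a b => F.P a b x) fun a b c d => o a b c d x) (g x))
        (tA (Om2 F.P F.Gam) B) x
      = trL (g x) * (eud F o x + sgd F o x) / 2 - cwd F o g B x / (16 * Real.pi ^ 2) := by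
  have L := lc_gam F
  have h1 := cw_ix_sym (h.vo x).swap (Pm_symm (frm F) x) (g x) (cm_Om_skew L (frm F) · · x)
    fun a b => curv I F.e F.c B a b x
  have h2 := cw_ix_sym (h.vo x).swap (sdM_symm (h.vo x)) (g x) (cm_Om2_skew L (frm F) · · x)
    fun a b => curv I F.e F.c B a b x
  have h4 : (Pm F.P x).trace = 4 := (h.vo x).tr
  rw [cwm_Pm L (frm F), h4] at h1
  rw [cwm_sd L (frm F) _ _ (h.vo x).tr, trace_sdM (h.vo x)] at h2
  have h3 := trL_ix (Pm F.P x) (g x)
  have h5 := trL_ix (sdM (fun a b => F.P a b x) fun a b c d => o a b c d x) (g x)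
  rw [h4] at h3
  rw [trace_sdM (h.vo x)] at h5
  simp only [dn, Ind95.dens, curv_tA (fun a => sm_Om L (frm F) a x) fun a => hB.sm a x,
    curv_tA (fun a => sm_Om2 L (frm F) a x) fun a => hB.sm a x]
  erw [h1, h2, h3, h5]
  rw [eud, sgd, cwd, Subsingleton.elim (fun a b => Classical.propDecidable (a = b)) ‹DecidableEq ι›]
  field_simp
  ring

end

variable [T2Space M] [BorelSpace M] [SecondCountableTopology M] [CompactSpace M] [I.Boundaryless]

theorem Pa.index' {Y : Type} [NormedAddCommGroup Y] [InnerProductSpace ℝ Y] [FiniteDimensional ℝ Y]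
    {A : Op M ι X Y} {A₁ : ι → M → X →L[ℝ] X} {A₂ : ι → M → Y →L[ℝ] Y} (D : Pa F A A₁ A₂)
    (h : OK F o) (T₀ : M → X →L[ℝ] X) (T₁ : M → Y →L[ℝ] Y)
    (h0 : ∀ x v, omP (fun a b c d => o a b c d x) (fun a => A.σ a x) (i1 X Y (A.p x v))
      = -i1 X Y (T₀ x v))
    (hσ : ∀ x a v, A.σ a x (T₀ x v) = T₁ x (A.σ a x v)) (hq : ∀ x w, T₁ x (A.q x w) = T₁ x w) :
    (ind F A : ℝ) = ∫ x, (dn F o T₀ A₁ x + dn F o T₁ A₂ x) ∂F.μ := D.index h h0 hσ hq

/-- **The index of `(div, d⁺)`.** -/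
theorem ind_hop (h : OK F o) :
    (ind F (hop F o) : ℝ) = -∫ x, (eud F o x + sgd F o x) / 2 ∂F.μ := by
  classical
  obtain ⟨C, -, hC⟩ := h.good
  have S : Sub F (triv M ℝ) fun _ _ => 0 :=
    ⟨⟨fun _ _ => contMDiffAt_const, by simp⟩, fun _ _ _ _ => by simp, contMDiff_const,
      fun _ _ => by simp [nabE]⟩
  have T := S.ps (S.two h)
  have D : Pa F (hop F o) (tA (Om F.P F.Gam) fun _ _ => 0)
      (sA (fun _ _ => 0) (tA (Om2 F.P F.Gam) fun _ _ => 0)) :=
    ⟨⟨C, hC⟩, h.cliff, S.one.con, T.con, S.one.sk, T.sk, S.one.par,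
    T.par, ((par_pj (lc_gam F) (frm F) _).pr2 ((par_wd (lc_gam F) (frm F) _).comp (S := fun _ => 1)
      (fun _ => contMDiffAt_const) (S.two h).sm (fun _ _ => by simp [nabE]) (S.two h).par)).congr
        fun _ _ _ => rfl⟩
  rw [D.index' h (fun x => -(hop F o).p x) (fun x => -(hop F o).q x), ← integral_neg]
  · refine congrArg _ (_root_.funext fun x => ?_)
    have h1 := dn_asd (g := triv M ℝ) S.con h x
    have h2 : cwd F o (triv M ℝ) (fun _ _ => 0) x = 0 := by simp [cwd, cw, curv]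
    have h3 : trL (triv M ℝ x) = 1 := by simp [trL_apply]
    rw [h2, h3, add_assoc, ← dn_sm2 S.con (S.two h).con, zero_div, sub_zero, one_mul] at h1
    rw [dn_neg, dn_neg, ← neg_add]
    exact congrArg _ h1
  · intro x v
    rw [neg_apply, map_neg, neg_neg]
    refine om_one (h.vo x) (cl_clf D.alg D.cl x) (g := ContinuousLinearMap.id ℝ ℝ) (fun _ => rfl)
      (ContinuousLinearMap.id ℝ _) (i1 _ _) (fun d ξ => fm_ext fun m => ?_)
      (fun b c α hα => fm_ext fun m => ?_) v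
    · simp [hop, Num57.tr_hσ (h.vo x), ea_apply, F.P_symm m]
    · simp [hop, Num57.tr_hσ (h.vo x), ea_apply, F.P_symm m, Num57.f2_hσ, Num57.s2_hσ,
        Num57.sd_idem (h.vo x), show Num57.p1 _ α = α from hα]
      exact Map77.idx_apply _ _ _ _
  · intro x a v
    simp only [neg_apply, map_neg, D.alg.σp, D.alg.qσ]
  · intro x w
    simp only [neg_apply, D.alg.q.idem]

variable {κ : Type} [Fintype κ] [DecidableEq κ]

/-- connections for which the bundles of a sub-theory are parallel -/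
structure BdP (d : Bd M ι κ) (F : Fr I M ι) (B : ι → M → CL (HS κ) (HS κ)) (W : ι → M → En κ) :
    Prop where
  P : F.P = d.P
  g : Sub F d.g B
  sp : Sub F d.sp W
  sm : Sub F d.sm W
  ρ : ParS I F.e F.Gam d.ρ W W
  om : ∀ x v, omC (d.ox x) (fun a => d.ρ a x) (d.sp x v) = -d.sp x v

theorem BdP.e0 {d : Bd M ι κ} {B : ι → M → CL (HS κ) (HS κ)} {W : ι → M → En κ}
    (D : BdP d F B W) (x : M) : d.Px x = fun a b => F.P a b x := by rw [D.P]

theorem BdP.s1 [DecidableEq ι] {d : Bd M ι κ} {B : ι → M → CL (HS κ) (HS κ)} {W : ι → M → En κ}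
    (D : BdP d F B W) (h : d.OK) : Sub F d.p1 (tA (Om F.P F.Gam) B) := by
  rw [show d.p1 = _ from _root_.funext fun x => (h.p1 x).trans (by rw [D.e0])]; exact D.g.one

theorem BdP.s2 [DecidableEq ι] {d : Bd M ι κ} {B : ι → M → CL (HS κ) (HS κ)} {W : ι → M → En κ}
    (D : BdP d F B W) (h : d.OK) (ho : OK F d.o) : Sub F d.p2 (tA (Om2 F.P F.Gam) B) := by
  rw [show d.p2 = _ from _root_.funext fun x => (h.p2 x).trans (by rw [D.e0])]; exact D.g.two ho

theorem good_full {d : Bd M ι κ} {B : ι → M → CL (HS κ) (HS κ)} {W : ι → M → En κ} (h : d.OK)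
    (ho : OK F d.o) (D : BdP d F B W) {u₀ : M → Cf ι κ} (hu : An.Sm I u₀) :
    ∃ C, F.Tame C ∧ (d.full F u₀).Good F C := by
  classical
  obtain ⟨C, hC⟩ := Cht98.exists_tame F ho.h4.le
  let K := cb (fun _ : Unit => F.toPre) Set.univ
  have e : ∀ {N : Type} [NormedAddCommGroup N] [NormedSpace ℝ N] {f : M → N}, An.Sm I f →
      K.mem fun _ => f := fun hf _ _ => Cb_of_compact hf
  have h1 : d.In K := ⟨fun a b => e (D.P ▸ F.P_sm a b), fun a => e (D.ρ.sm a), e D.g.sm,
    e (D.s1 h).sm, e (D.s2 h ho).sm, e D.sp.sm, e D.sm.sm⟩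
  have h2 := h1.full (F := fun _ => F) (fun a b k => e (F.c_sm a b k)) (fun a => e (F.dv_sm a))
    (e hu)
  exact good_of hC (h2.p () trivial) (h2.q () trivial) (fun a => h2.σ a () trivial)
    (h2.B () trivial) (D.P ▸ h.alg_full u₀)

theorem pa_full [DecidableEq ι] {d : Bd M ι κ} {B : ι → M → CL (HS κ) (HS κ)} {W : ι → M → En κ}
    (h : d.OK) (ho : OK F d.o) (D : BdP d F B W) {u₀ : M → Cf ι κ} (hu : An.Sm I u₀) :
    Pa F (d.full F u₀) (sA (tA (Om F.P F.Gam) B) W) (sA B (sA W (tA (Om2 F.P F.Gam) B))) := by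
  obtain ⟨C, -, hC⟩ := good_full h ho D hu
  have S1 := D.s1 h
  have S2 := D.s2 h ho
  have S := S1.ps D.sp
  have T := D.g.ps (D.sm.ps S2)
  have z : ∀ {X : Type} [NormedAddCommGroup X] [InnerProductSpace ℝ X] (A : ι → M → X →L[ℝ] X) a x,
      nabE I F.e A a (fun _ => 1) x = 0 := fun A a x => by simp [nabE]
  exact ⟨⟨C, hC⟩, h.cliff_full D.P u₀, S.con, T.con, S.sk, T.sk, S.par, T.par,
    (((par_pj (lc_gam F) (frm F) B).comp S1.sm (fun _ => contMDiffAt_const) S1.par (z _)).fst.pr2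
      ((D.ρ.comp D.sp.sm (fun _ => contMDiffAt_const) D.sp.par (z _)).snd.pr2
        ((par_wd (lc_gam F) (frm F) B).comp S1.sm S2.sm S1.par S2.par).fst)).congr
      fun a x v => ext2 (by simp [h.full_σ1, D.P, h.P_p1])
        (ext2 (by simp [h.full_σ2]) (by simp [Bd.OK.full_σ3, D.e0]))⟩

theorem om_full {d : Bd M ι κ} (h : d.OK) (hP : F.P = d.P) (u₀ : M → Cf ι κ) (x : M)
    (hω : ∀ v, omC (d.ox x) (fun a => d.ρ a x) (d.sp x v) = -d.sp x v) (v : Cf ι κ) :
    omP (d.ox x) (fun a => (d.full F u₀).σ a x) (i1 _ _ (d.pC x v))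
      = -i1 _ _ (sm2 (-d.p1 x) (d.sp x) v) := by
  have C := cl_clf (hP ▸ h.alg_full u₀) (h.cliff_full hP u₀) x
  rw [hP] at C
  have h1 := om_one (h.vol x) C (h.g.idem x) (i1 _ (Eu κ)) (i1 _ _)
    (fun a ξ => by simp [h.tr_full]; rfl)
    (fun b c α hα => by
      rw [← h.p1] at hα
      simp [h.tr_full, h.full_σ1, h.full_σ2, Bd.OK.full_σ3, hα, h.prj2.idem, ← h.p2]
      rw [← hα, h.g_p1]) (fa v)
  have k1 : ∀ a φ, clf ((d.full F u₀).σ a x) (i1 _ _ (i2 _ _ (d.sp x φ)))
      = i2 _ _ (i2 _ _ (i1 _ _ (d.sm x (d.ρ a x (d.sp x φ))))) := fun a φ => by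
    rw [clf_i1, h.mp]
    exact congrArg _ (ext2 (by simp [h.full_σ1])
      (ext2 (by simp [h.full_σ2, h.sp.idem]) (by simp [Bd.OK.full_σ3])))
  have k2 : ∀ a φ, clf ((d.full F u₀).σ a x) (i2 _ _ (i2 _ _ (i1 _ _ (d.sm x φ))))
      = i1 _ _ (i2 _ _ (d.sp x (d.ρ a x (d.sm x φ)))) := fun a φ => by
    rw [clf_i2, h.pm, ← map_neg]
    simp [h.tr_full, h.sm.idem]
    rfl
  have k3 : ∀ a b c e φ, d.sp x (d.ρ a x (d.sm x (d.ρ b x (d.sp x (d.ρ c x (d.sm x (d.ρ e x
      (d.sp x φ)))))))) = d.ρ a x (d.ρ b x (d.ρ c x (d.ρ e x (d.sp x φ)))) :=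
    fun a b c e φ => by rw [h.pm, h.mp, h.pm, h.mp]
  have h2 := congrArg (fun φ => i1 _ (P2 (HS κ) (Ef ι κ)) (i2 (Fm ι (HS κ)) _ φ)) (hω (fp v))
  rw [← h.p1] at h1
  rw [show d.pC x v = i1 _ _ (d.p1 x (fa v)) + i2 _ _ (d.sp x (fp v)) from rfl,
    map_add, map_add, h1]
  simp only [omC, smul_apply, _root_.sum_apply, mul_apply_eq_comp, map_smul, map_sum] at h2
  simp only [omP_apply, k1, k2]
  simp only [k3]
  rw [h2]
  exact ext2 (ext2 (by simp) (by simp)) (by simp)

theorem σT_full {d : Bd M ι κ} (h : d.OK) (u₀ : M → Cf ι κ) (x : M) (a : ι)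
    (v : Cf ι κ) : (d.full F u₀).σ a x (sm2 (-d.p1 x) (d.sp x) v)
      = sm2 (-d.g x) (sm2 (d.sm x) (-d.p2 x)) ((d.full F u₀).σ a x v) := by
  refine ext2 ?_ (ext2 ?_ ?_)
  · simp only [f2_sm2, h.full_σ1, neg_apply, map_neg, h.prj1.idem, h.g_p1, PiLp.neg_apply]
  · simp only [f2_sm2, s2_sm2, h.full_σ2, h.sp.idem, h.mp]
  · simp only [f2_sm2, s2_sm2, Bd.OK.full_σ3, neg_apply, map_neg, h.prj1.idem, h.prj2.idem]

/-- **The index of the linearised monopole operator.** -/
theorem ind_full {d : Bd M ι κ} {B : ι → M → CL (HS κ) (HS κ)} {W : ι → M → En κ} (h : d.OK)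
    (ho : OK F d.o) (D : BdP d F B W) {u₀ : M → Cf ι κ} (hu : An.Sm I u₀) :
    (ind F (d.full F u₀) : ℝ) = ∫ x, (cwd F d.o d.g B x / (16 * Real.pi ^ 2)
      - trL (d.g x) * (eud F d.o x + sgd F d.o x) / 2
      + dn F d.o (fun x => d.sp x + d.sm x) W x) ∂F.μ := by
  classical
  have S1 := D.s1 h
  have S2 := D.s2 h ho
  have Q := pa_full h ho D hu
  rw [Q.index' ho (fun x => sm2 (-d.p1 x) (d.sp x))
    (fun x => sm2 (-d.g x) (sm2 (d.sm x) (-d.p2 x)))
    (fun x => om_full h D.P u₀ x (D.om x)) (σT_full h u₀)]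
  · refine congrArg _ (_root_.funext fun x => ?_)
    have h1 := dn_asd (g := d.g) D.g.con ho x
    simp only [← D.e0, ← h.p1, ← h.p2] at h1
    rw [dn_sm2 S1.con D.sp.con, dn_sm2 D.g.con (D.sm.ps S2).con, dn_sm2 D.sm.con S2.con, dn_neg,
      dn_neg, dn_neg, show dn F d.o (fun x => d.sp x + d.sm x) W x = _ from dens_add _ _ _ _ _]
    simp only [dn] at h1 ⊢
    linarith
  · intro x w
    rw [show (d.full F u₀).q x w = ps d.g d.pE x w from rfl]
    refine ext2 ?_ (ext2 ?_ ?_) <;>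
      simp only [f2_sm2, s2_sm2, f2_ps, s2_ps, neg_apply, h.g.idem, h.sm.idem, h.prj2.idem]

end Crest.Agent.X212.Idg99
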